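import Vale.Agent.P042.R2.H485.Ker

/-!
# The kernel of an odd prime
-/

open Finset

namespace Vale.Agent.P042.H485

variable {p : ℕ} [Fact p.Prime]

/-- the quadratic character with complex values -/
noncomputable def qc (p : ℕ) [Fact p.Prime] : MulChar (ZMod p) ℂ :=
  (quadraticChar (ZMod p)).ringHomComp (Int.castRingHom ℂ)

theorem qc_apply (x : ZMod p) : qc p x = ((quadraticChar (ZMod p) x : ℤ) : ℂ) := rfl

/-- the Gauss sum -/
noncomputable def gs (p : ℕ) [Fact p.Prime] : ℂ := gaussSum (qc p) (ZMod.stdAddChar (N := p))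

theorem qc_ne_one (hp : p ≠ 2) : qc p ≠ 1 := by
  have h := quadraticChar_ne_one (F := ZMod p) (by rwa [ZMod.ringChar_zmod_n])
  rw [qc]
  exact (MulChar.ringHomComp_ne_one_iff Int.cast_injective).mpr h

theorem qc_quad : (qc p).IsQuadratic := (quadraticChar_isQuadratic (ZMod p)).comp _

theorem gs_sq (hp : p ≠ 2) : gs p ^ 2 = qc p (-1) * p := by
  have := gaussSum_sq (qc_ne_one hp) qc_quad (ZMod.isPrimitive_stdAddChar p)
  rw [ZMod.card] at this
  exact this

theorem std_eq (ξ : ZMod p) (t : ℤ) :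
    ZMod.stdAddChar (N := p) (ξ * (t : ZMod p)) = ee (ξ.val / p) t := by
  have h : ξ * (t : ZMod p) = ((ξ.val * t : ℤ) : ZMod p) := by
    push_cast
    rw [ZMod.natCast_zmod_val]
  rw [h, ZMod.stdAddChar_coe, ee]
  congr 1
  push_cast
  ring

theorem sum_qc (hp : p ≠ 2) (t : ZMod p) :
    ∑ ξ : ZMod p, qc p ξ * ZMod.stdAddChar (N := p) (ξ * t) = qc p t * gs p := by
  rcases eq_or_ne t 0 with rfl | ht
  · have h0 : qc p 0 = 0 := by simp [qc_apply]
    simp only [mul_zero, AddChar.map_zero_eq_one, mul_one, h0, zero_mul]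
    exact MulChar.sum_eq_zero_of_ne_one (qc_ne_one hp)
  · have h := gaussSum_mulShift (qc p) (ZMod.stdAddChar (N := p)) (Units.mk0 t ht)
    have h2 : qc p t * qc p t = 1 := by
      rw [← map_mul, ← sq, qc_apply]
      have : quadraticChar (ZMod p) (t ^ 2) = 1 := by
        rw [map_pow]; exact quadraticChar_sq_one ht
      rw [this]; simp
    have h3 : gaussSum (qc p) (AddChar.mulShift (ZMod.stdAddChar (N := p)) t) =
        ∑ ξ : ZMod p, qc p ξ * ZMod.stdAddChar (N := p) (ξ * t) := by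
      simp only [gaussSum, AddChar.mulShift_apply]
      exact Finset.sum_congr rfl fun x _ => by rw [mul_comm t x]
    rw [Units.val_mk0] at h
    rw [← h3, gs, ← h, ← mul_assoc, h2, one_mul]

/-- exact form of the kernel of a prime -/
def BaseKer (p : ℕ) [Fact p.Prime] (φ c : ℝ) : Prop :=
  ∃ (ι : Type) (_ : Fintype ι) (a : ι → ℂ) (θ : ι → ℝ), (∀ j, Sec φ (a j)) ∧
    ∀ t : ℤ, 1 + ∑ j, a j * ee (θ j) t =
      (p / (p + c) : ℝ) * (1 + qc p (t : ZMod p) + if (p : ℤ) ∣ t then (c : ℂ) else 0)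

theorem base_of {φ c : ℝ} (hp : p ≠ 2) (hφ : 0 ≤ φ) (hc : 0 ≤ c)
    (h : ∀ ξ : ZMod p, ξ ≠ 0 → Sec φ ((c : ℂ) + qc p (-1) * gs p * qc p ξ)) : BaseKer p φ c := by
  classical
  have hp0 : (0 : ℝ) < p := by exact_mod_cast (Fact.out : p.Prime).pos
  have hpc : (0 : ℝ) < p + c := by linarith
  have hpC : (p : ℂ) ≠ 0 := by exact_mod_cast (Fact.out : p.Prime).ne_zero
  have hpcC : ((p : ℂ) + c) ≠ 0 := by
    have : (((p + c : ℝ)) : ℂ) ≠ 0 := by exact_mod_cast hpc.ne'
    push_cast at this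
    exact this
  have hq0 : qc p 0 = 0 := by simp [qc_apply]
  have hm1 : qc p (-1) * qc p (-1) = 1 := by
    rw [← map_mul]; simp
  refine ⟨ZMod p, inferInstance, fun ξ => if ξ = 0 then 0 else
    ((1 / (p + c) : ℝ) : ℂ) * ((c : ℂ) + qc p (-1) * gs p * qc p ξ), fun ξ => ξ.val / p,
    ?_, ?_⟩
  · intro ξ
    dsimp only
    split_ifs with h0
    · simpa using sec_of_nonneg hφ (le_refl (0 : ℝ))
    · exact (h ξ h0).smul (by positivity)
  · intro t
    have e0 : ∑ ξ : ZMod p, (if ξ = 0 then (0 : ℂ) else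
        ((1 / (p + c) : ℝ) : ℂ) * ((c : ℂ) + qc p (-1) * gs p * qc p ξ)) * ee (ξ.val / p) t =
        ∑ ξ : ZMod p, ((1 / (p + c) : ℝ) : ℂ) * ((c : ℂ) + qc p (-1) * gs p * qc p ξ) *
          ZMod.stdAddChar (N := p) (ξ * (t : ZMod p)) - ((1 / (p + c) : ℝ) : ℂ) * c := by
      have e1 : ∀ ξ : ZMod p, (if ξ = 0 then (0 : ℂ) else
        ((1 / (p + c) : ℝ) : ℂ) * ((c : ℂ) + qc p (-1) * gs p * qc p ξ)) * ee (ξ.val / p) t =
        ((1 / (p + c) : ℝ) : ℂ) * ((c : ℂ) + qc p (-1) * gs p * qc p ξ) *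
          ZMod.stdAddChar (N := p) (ξ * (t : ZMod p)) -
          if ξ = 0 then ((1 / (p + c) : ℝ) : ℂ) * c else 0 := by
        intro ξ
        rw [std_eq]
        split_ifs with h0
        · subst h0
          simp [hq0, ee_zero_left]
        · simp
      rw [Finset.sum_congr rfl fun ξ _ => e1 ξ, Finset.sum_sub_distrib]
      simp
    rw [e0]
    have e2 : ∑ ξ : ZMod p, ((1 / (p + c) : ℝ) : ℂ) * ((c : ℂ) + qc p (-1) * gs p * qc p ξ) *
          ZMod.stdAddChar (N := p) (ξ * (t : ZMod p)) =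
        ((1 / (p + c) : ℝ) : ℂ) * (c * (∑ ξ : ZMod p, ZMod.stdAddChar (N := p) (ξ * (t : ZMod p)))
          + qc p (-1) * gs p * ∑ ξ : ZMod p, qc p ξ *
            ZMod.stdAddChar (N := p) (ξ * (t : ZMod p))) := by
      rw [mul_add, Finset.mul_sum, Finset.mul_sum, Finset.mul_sum, Finset.mul_sum,
        ← Finset.sum_add_distrib]
      exact Finset.sum_congr rfl fun ξ _ => by ring
    have e3 : qc p (-1) * gs p * (qc p (t : ZMod p) * gs p) = p * qc p (t : ZMod p) := by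
      have : qc p (-1) * gs p * (qc p (t : ZMod p) * gs p) =
        qc p (-1) * qc p (t : ZMod p) * gs p ^ 2 := by ring
      rw [this, gs_sq hp]
      have : qc p (-1) * qc p (t : ZMod p) * (qc p (-1) * p) =
        (qc p (-1) * qc p (-1)) * (p * qc p (t : ZMod p)) := by ring
      rw [this, hm1, one_mul]
    rw [e2, sum_qc hp, e3, AddChar.sum_mulShift _ (ZMod.isPrimitive_stdAddChar p), ZMod.card]
    have hd : ((t : ZMod p) = 0) ↔ (p : ℤ) ∣ t := ZMod.intCast_zmod_eq_zero_iff_dvd t p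
    by_cases h0 : (p : ℤ) ∣ t
    · rw [if_pos h0, if_pos (hd.mpr h0)]
      push_cast
      field_simp
      ring
    · rw [if_neg h0, if_neg (fun h1 => h0 (hd.mp h1))]
      push_cast
      field_simp
      ring

theorem qc_pm {ξ : ZMod p} (h : ξ ≠ 0) : qc p ξ = 1 ∨ qc p ξ = -1 := by
  rcases quadraticChar_dichotomy h with h | h <;> simp [qc_apply, h]

theorem qc_neg_one_one (h : p % 4 = 1) : qc p (-1) = 1 := by
  have hp : p ≠ 2 := by rintro rfl; norm_num at h
  rw [qc_apply, quadraticChar_neg_one (by rwa [ZMod.ringChar_zmod_n]), ZMod.card,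
    ZMod.χ₄_nat_one_mod_four h]
  simp

theorem qc_neg_one_three (h : p % 4 = 3) : qc p (-1) = -1 := by
  have hp : p ≠ 2 := by rintro rfl; norm_num at h
  rw [qc_apply, quadraticChar_neg_one (by rwa [ZMod.ringChar_zmod_n]), ZMod.card,
    ZMod.χ₄_nat_three_mod_four h]
  simp

/-- `p = 1 mod 4` -/
theorem base_one (h : p % 4 = 1) : BaseKer p 0 (Real.sqrt p) := by
  have hp : p ≠ 2 := by rintro rfl; norm_num at h
  refine base_of hp le_rfl (Real.sqrt_nonneg _) fun ξ hξ => ?_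
  rw [qc_neg_one_one h, one_mul]
  have hs : gs p ^ 2 = ((Real.sqrt p : ℝ) : ℂ) ^ 2 := by
    rw [gs_sq hp, qc_neg_one_one h, one_mul, ← Complex.ofReal_pow, Real.sq_sqrt (by positivity)]
    simp
  have h2 : gs p = ((Real.sqrt p : ℝ) : ℂ) ∨ gs p = -((Real.sqrt p : ℝ) : ℂ) :=
    sq_eq_sq_iff_eq_or_eq_neg.mp hs
  have key : ((Real.sqrt p : ℝ) : ℂ) + gs p * qc p ξ = ((2 * Real.sqrt p : ℝ) : ℂ) ∨
      ((Real.sqrt p : ℝ) : ℂ) + gs p * qc p ξ = ((0 : ℝ) : ℂ) := by
    rcases h2 with h2 | h2 <;> rcases qc_pm hξ with h3 | h3 <;> rw [h2, h3] <;> push_cast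
    · left; ring
    · right; ring
    · right; ring
    · left; ring
  rcases key with key | key
  · rw [key]; exact sec_of_nonneg le_rfl (by positivity)
  · rw [key]; exact sec_of_nonneg le_rfl le_rfl

/-- `p = 3 mod 4` -/
theorem base_three (h : p % 4 = 3) {φ : ℝ} (h0 : 0 < φ) (h1 : φ ≤ Real.pi / 2) :
    BaseKer p φ (Real.sqrt p * (Real.cos φ / Real.sin φ)) := by
  have hp : p ≠ 2 := by rintro rfl; norm_num at h
  have hsin : 0 < Real.sin φ := Real.sin_pos_of_pos_of_lt_pi h0 (by linarith [Real.pi_pos])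
  have hcos : 0 ≤ Real.cos φ := Real.cos_nonneg_of_mem_Icc ⟨by linarith, h1⟩
  refine base_of hp h0.le (by positivity) fun ξ hξ => ?_
  have hs : gs p ^ 2 = (((Real.sqrt p : ℝ) : ℂ) * Complex.I) ^ 2 := by
    rw [gs_sq hp, qc_neg_one_three h, mul_pow, Complex.I_sq, ← Complex.ofReal_pow,
      Real.sq_sqrt (by positivity)]
    simp
  have h2 := sq_eq_sq_iff_eq_or_eq_neg.mp hs
  have hexp : ∀ x : ℝ, Complex.exp (x * Complex.I) =
      ((Real.cos x : ℝ) : ℂ) + ((Real.sin x : ℝ) : ℂ) * Complex.I := by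
    intro x
    rw [Complex.exp_mul_I, Complex.ofReal_cos, Complex.ofReal_sin]
  have hsC : Complex.sin (φ : ℂ) ≠ 0 := by
    rw [← Complex.ofReal_sin]
    exact_mod_cast hsin.ne'
  have a1 : Sec φ (((Real.sqrt p * (Real.cos φ / Real.sin φ) : ℝ) : ℂ) +
      ((Real.sqrt p : ℝ) : ℂ) * Complex.I) := by
    refine ⟨Real.sqrt p / Real.sin φ, φ, by positivity, (abs_of_pos h0).le, ?_⟩
    rw [hexp]
    push_cast
    field_simp
  have a2 : Sec φ (((Real.sqrt p * (Real.cos φ / Real.sin φ) : ℝ) : ℂ) -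
      ((Real.sqrt p : ℝ) : ℂ) * Complex.I) := by
    refine ⟨Real.sqrt p / Real.sin φ, -φ, by positivity, by rw [abs_neg, abs_of_pos h0], ?_⟩
    rw [hexp, Real.cos_neg, Real.sin_neg]
    push_cast
    field_simp
    ring
  rw [qc_neg_one_three h]
  rcases h2 with h2 | h2 <;> rcases qc_pm hξ with h3 | h3 <;> rw [h2, h3]
  · convert a2 using 1; ring
  · convert a1 using 1; ring
  · convert a1 using 1; ring
  · convert a2 using 1; ring

end Vale.Agent.P042.H485
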