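import Vale.Agent.P042.R2.H485.Step

/-!
# The rank bound
-/

open Finset

namespace Vale.Agent.P042.H485

/-- a matrix of rank at most `R` that vanishes when the difference is not a square -/
def RMat (M R : ℕ) : Prop :=
  ∃ (ι : Type) (_ : Fintype ι) (F G : ℤ → ι → ℂ), Fintype.card ι ≤ R ∧
    (∀ x, ∑ j, F x j * G x j ≠ 0) ∧ ∀ x y, ¬ SqMod M (x - y) → ∑ j, F x j * G y j = 0

theorem RMat.bound {M R : ℕ} (h : RMat M R) (S : Finset ℤ)
    (hS : ∀ x ∈ S, ∀ y ∈ S, x ≠ y → ¬ SqMod M (x - y)) : S.card ≤ R := by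
  classical
  obtain ⟨ι, I, F, G, h1, h2, h3⟩ := h
  refine le_trans ?_ h1
  let A : Matrix S ι ℂ := fun x j => F x j
  let B : Matrix ι S ℂ := fun j y => G y j
  have hAB : A * B = Matrix.diagonal (fun x : S => ∑ j, F x j * G x j) := by
    ext x y
    rw [Matrix.mul_apply, Matrix.diagonal_apply]
    split_ifs with hxy
    · subst hxy; rfl
    · exact h3 x y (hS x x.2 y y.2 fun h => hxy (Subtype.ext h))
  have hr : (A * B).rank = Fintype.card S := by
    rw [hAB, Matrix.rank_diagonal]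
    exact Fintype.card_congr (Equiv.subtypeUnivEquiv fun x => h2 x)
  have h4 : (A * B).rank ≤ Fintype.card ι :=
    (Matrix.rank_mul_le_left A B).trans (Matrix.rank_le_card_width A)
  rw [hr, Fintype.card_coe] at h4
  exact h4

theorem RMat.one : RMat 1 1 :=
  ⟨Unit, inferInstance, fun _ _ => 1, fun _ _ => 1, by simp, by simp, fun x y h =>
    absurd ⟨0, by simp⟩ h⟩

theorem RMat.triv (N : ℕ) (hN : 0 < N) : RMat N N := by
  classical
  have : NeZero N := ⟨hN.ne'⟩
  refine ⟨ZMod N, inferInstance, fun x j => if (x : ZMod N) = j then 1 else 0,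
    fun x j => if (x : ZMod N) = j then 1 else 0, by simp, fun x => by simp, fun x y h => ?_⟩
  have hxy : (x : ZMod N) ≠ y := by
    intro h1
    apply h
    refine ⟨0, ?_⟩
    rw [← ZMod.intCast_zmod_eq_zero_iff_dvd]
    push_cast
    rw [h1]
    ring
  refine Finset.sum_eq_zero fun j _ => ?_
  dsimp only
  by_cases h1 : (x : ZMod N) = j
  · have : (y : ZMod N) ≠ j := fun h2 => hxy (h1.trans h2.symm)
    rw [if_neg this, mul_zero]
  · rw [if_neg h1, zero_mul]

theorem RMat.mul {M N : ℕ} (hc : M.Coprime N) {R R' : ℕ} (h : RMat M R) (h' : RMat N R') :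
    RMat (M * N) (R * R') := by
  obtain ⟨ι, I, F, G, h1, h2, h3⟩ := h
  obtain ⟨κ, J, F', G', g1, g2, g3⟩ := h'
  have key : ∀ x y : ℤ, ∑ z : ι × κ, (F x z.1 * F' x z.2) * (G y z.1 * G' y z.2) =
      (∑ j, F x j * G y j) * ∑ j, F' x j * G' y j := by
    intro x y
    rw [Fintype.sum_prod_type, Finset.sum_mul_sum]
    exact Finset.sum_congr rfl fun j _ => Finset.sum_congr rfl fun k _ => by ring
  refine ⟨ι × κ, inferInstance, fun x z => F x z.1 * F' x z.2, fun x z => G x z.1 * G' x z.2,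
    ?_, ?_, ?_⟩
  · rw [Fintype.card_prod]; exact Nat.mul_le_mul h1 g1
  · intro x
    rw [key]
    exact mul_ne_zero (h2 x) (g2 x)
  · intro x y hxy
    rw [key]
    by_cases hM : SqMod M (x - y)
    · rw [g3 x y fun hN => hxy (hM.mul hc hN), mul_zero]
    · rw [h3 x y hM, zero_mul]

variable {p : ℕ} [Fact p.Prime]

theorem card_qc (hp : p ≠ 2) :
    Fintype.card {ξ : ZMod p // quadraticChar (ZMod p) ξ ≠ 1} ≤ (p + 1) / 2 := by
  classical
  have hsum : ∑ ξ : ZMod p, quadraticChar (ZMod p) ξ = 0 :=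
    quadraticChar_sum_zero (by rwa [ZMod.ringChar_zmod_n])
  have h1 : ∀ ξ : ZMod p, quadraticChar (ZMod p) ξ =
      (1 : ℤ) - 2 * (if quadraticChar (ZMod p) ξ ≠ 1 then 1 else 0) + (if ξ = 0 then 1 else 0) := by
    intro ξ
    rcases eq_or_ne ξ 0 with rfl | h
    · simp
    · rcases quadraticChar_dichotomy h with h2 | h2 <;> simp [h2, h]
  rw [Finset.sum_congr rfl fun ξ _ => h1 ξ, Finset.sum_add_distrib, Finset.sum_sub_distrib,
    ← Finset.mul_sum, Finset.sum_boole] at hsum
  simp only [Finset.sum_const, Finset.card_univ, ZMod.card, Finset.sum_ite_eq', Finset.mem_univ,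
    if_true, nsmul_eq_mul, mul_one] at hsum
  rw [Fintype.card_subtype]
  have : (2 * (Finset.univ.filter fun ξ : ZMod p => quadraticChar (ZMod p) ξ ≠ 1).card : ℤ) =
      p + 1 := by
    linarith
  omega

theorem rmat_prime (hp : p ≠ 2) : RMat p ((p + 1) / 2) := by
  classical
  have hpn : 0 < p := (Fact.out : p.Prime).pos
  have hpC : (p : ℂ) ≠ 0 := by exact_mod_cast hpn.ne'
  have hq0 : qc p 0 = 0 := by simp [qc_apply]
  have hm1 : qc p (-1) * qc p (-1) = 1 := by
    rw [← map_mul]; simp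
  obtain ⟨c, hc⟩ : ∃ c : ℂ, c = - (qc p (-1) * gs p) := ⟨_, rfl⟩
  have hc1 : 1 + c ≠ 0 := by
    intro h
    have h1 : qc p (-1) * gs p = 1 := by rw [hc] at h; linear_combination -h
    have h2 : (qc p (-1) * gs p) ^ 2 = qc p (-1) * p := by
      rw [mul_pow, gs_sq hp, sq, hm1, one_mul]
    rw [h1] at h2
    have h3 : (p : ℂ) = qc p (-1) := by
      have := congrArg (fun z => qc p (-1) * z) h2
      simp only [one_pow, mul_one, ← mul_assoc, hm1, one_mul] at this
      exact this.symm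
    have h4 : (p : ℂ) = 1 ∨ (p : ℂ) = -1 := by
      rcases qc_pm (p := p) (ξ := -1) (by simp) with h5 | h5
      · left; rw [h3, h5]
      · right; rw [h3, h5]
    rcases h4 with h4 | h4
    · have : p = 1 := by exact_mod_cast h4
      exact (Fact.out : p.Prime).one_lt.ne' this
    · have h5 := congrArg Complex.re h4
      simp at h5
      have : (0 : ℝ) ≤ p := by positivity
      linarith
  have hf : ∀ t : ℤ, ∑ ξ : {ξ : ZMod p // quadraticChar (ZMod p) ξ ≠ 1},
      ((if ξ.1 = 0 then (p : ℂ) else 0) + c + qc p (-1) * gs p * qc p ξ.1) *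
        ZMod.stdAddChar (N := p) (ξ.1 * (t : ZMod p)) =
      p * (1 + qc p (t : ZMod p) + if (p : ℤ) ∣ t then c else 0) := by
    intro t
    have e1 : ∑ ξ : {ξ : ZMod p // quadraticChar (ZMod p) ξ ≠ 1},
      ((if ξ.1 = 0 then (p : ℂ) else 0) + c + qc p (-1) * gs p * qc p ξ.1) *
        ZMod.stdAddChar (N := p) (ξ.1 * (t : ZMod p)) =
      ∑ ξ : ZMod p, ((if ξ = 0 then (p : ℂ) else 0) + c + qc p (-1) * gs p * qc p ξ) *
        ZMod.stdAddChar (N := p) (ξ * (t : ZMod p)) := by
      have h5 := Finset.sum_subtype (F := inferInstance)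
        (Finset.univ.filter fun ξ : ZMod p => quadraticChar (ZMod p) ξ ≠ 1)
        (p := fun ξ : ZMod p => quadraticChar (ZMod p) ξ ≠ 1) (fun x => by simp)
        (fun ξ : ZMod p => ((if ξ = 0 then (p : ℂ) else 0) + c + qc p (-1) * gs p * qc p ξ) *
          ZMod.stdAddChar (N := p) (ξ * (t : ZMod p)))
      rw [← h5]
      refine Finset.sum_subset (Finset.filter_subset _ _) ?_
      intro ξ _ hξ
      have h6 : quadraticChar (ZMod p) ξ = 1 := by simpa using hξ
      have h7 : qc p ξ = 1 := by rw [qc_apply, h6]; simp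
      have h8 : ξ ≠ 0 := by
        rintro rfl
        simp at h6
      rw [if_neg h8, h7, hc]
      ring
    rw [e1]
    have e2 : ∑ ξ : ZMod p, ((if ξ = 0 then (p : ℂ) else 0) + c + qc p (-1) * gs p * qc p ξ) *
        ZMod.stdAddChar (N := p) (ξ * (t : ZMod p)) =
        (∑ ξ : ZMod p, (if ξ = 0 then (p : ℂ) else 0) *
          ZMod.stdAddChar (N := p) (ξ * (t : ZMod p))) +
        c * (∑ ξ : ZMod p, ZMod.stdAddChar (N := p) (ξ * (t : ZMod p))) +
        qc p (-1) * gs p * ∑ ξ : ZMod p, qc p ξ * ZMod.stdAddChar (N := p) (ξ * (t : ZMod p)) := by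
      rw [Finset.mul_sum, Finset.mul_sum, ← Finset.sum_add_distrib, ← Finset.sum_add_distrib]
      exact Finset.sum_congr rfl fun ξ _ => by ring
    have e3 : qc p (-1) * gs p * (qc p (t : ZMod p) * gs p) = p * qc p (t : ZMod p) := by
      have : qc p (-1) * gs p * (qc p (t : ZMod p) * gs p) =
        qc p (-1) * qc p (t : ZMod p) * gs p ^ 2 := by ring
      rw [this, gs_sq hp]
      have : qc p (-1) * qc p (t : ZMod p) * (qc p (-1) * p) =
        (qc p (-1) * qc p (-1)) * (p * qc p (t : ZMod p)) := by ring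
      rw [this, hm1, one_mul]
    have hd : ((t : ZMod p) = 0) ↔ (p : ℤ) ∣ t := ZMod.intCast_zmod_eq_zero_iff_dvd t p
    rw [e2, sum_qc hp, e3, AddChar.sum_mulShift _ (ZMod.isPrimitive_stdAddChar p), ZMod.card]
    simp only [ite_mul, zero_mul, Finset.sum_ite_eq', Finset.mem_univ, if_true,
      AddChar.map_zero_eq_one, mul_one]
    by_cases h0 : (p : ℤ) ∣ t
    · rw [if_pos h0, if_pos (hd.mpr h0)]; ring
    · rw [if_neg h0, if_neg (fun h1 => h0 (hd.mp h1))]; push_cast; ring
  have hprod : ∀ (ξ : ZMod p) (x y : ℤ), ZMod.stdAddChar (N := p) (ξ * ((x - y : ℤ) : ZMod p)) =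
      ZMod.stdAddChar (N := p) (ξ * (x : ZMod p)) *
        ZMod.stdAddChar (N := p) (-(ξ * (y : ZMod p))) := by
    intro ξ x y
    rw [← AddChar.map_add_eq_mul]
    congr 1
    push_cast
    ring
  refine ⟨{ξ : ZMod p // quadraticChar (ZMod p) ξ ≠ 1}, inferInstance,
    fun x ξ => ((if ξ.1 = 0 then (p : ℂ) else 0) + c + qc p (-1) * gs p * qc p ξ.1) *
        ZMod.stdAddChar (N := p) (ξ.1 * (x : ZMod p)),
    fun y ξ => ZMod.stdAddChar (N := p) (-(ξ.1 * (y : ZMod p))), card_qc hp, ?_, ?_⟩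
  · intro x
    have := hf 0
    have e : ∀ ξ : {ξ : ZMod p // quadraticChar (ZMod p) ξ ≠ 1},
        ((if ξ.1 = 0 then (p : ℂ) else 0) + c + qc p (-1) * gs p * qc p ξ.1) *
        ZMod.stdAddChar (N := p) (ξ.1 * (x : ZMod p)) *
        ZMod.stdAddChar (N := p) (-(ξ.1 * (x : ZMod p))) =
        ((if ξ.1 = 0 then (p : ℂ) else 0) + c + qc p (-1) * gs p * qc p ξ.1) *
        ZMod.stdAddChar (N := p) (ξ.1 * ((0 : ℤ) : ZMod p)) := by
      intro ξ
      rw [mul_assoc, ← hprod, sub_self]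
    rw [Finset.sum_congr rfl fun ξ _ => e ξ, this]
    simp only [Int.cast_zero, hq0, dvd_zero, if_true, add_zero]
    exact mul_ne_zero hpC hc1
  · intro x y hxy
    have e : ∀ ξ : {ξ : ZMod p // quadraticChar (ZMod p) ξ ≠ 1},
        ((if ξ.1 = 0 then (p : ℂ) else 0) + c + qc p (-1) * gs p * qc p ξ.1) *
        ZMod.stdAddChar (N := p) (ξ.1 * (x : ZMod p)) *
        ZMod.stdAddChar (N := p) (-(ξ.1 * (y : ZMod p))) =
        ((if ξ.1 = 0 then (p : ℂ) else 0) + c + qc p (-1) * gs p * qc p ξ.1) *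
        ZMod.stdAddChar (N := p) (ξ.1 * ((x - y : ℤ) : ZMod p)) := by
      intro ξ
      rw [mul_assoc, ← hprod]
    rw [Finset.sum_congr rfl fun ξ _ => e ξ, hf (x - y)]
    have h3 : qc p (((x - y : ℤ)) : ZMod p) = -1 := by
      by_contra h4
      exact hxy (sqMod_of_qc h4)
    have h4 : ¬ (p : ℤ) ∣ (x - y) := fun h5 => hxy ⟨0, by simpa using h5⟩
    rw [h3, if_neg h4]
    ring

theorem RMat.step (hp : p ≠ 2) {a R R' : ℕ} (h : RMat p R) (h' : RMat (p ^ a) R') :
    RMat (p ^ (a + 2)) (R * p * R') := by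
  classical
  obtain ⟨ι, I, F, G, h1, h2, h3⟩ := h
  obtain ⟨κ, J, F', G', g1, g2, g3⟩ := h'
  have hpn : 0 < p := (Fact.out : p.Prime).pos
  have : NeZero p := ⟨hpn.ne'⟩
  have hpz : (0 : ℤ) < p := by exact_mod_cast hpn
  -- digits
  obtain ⟨u, hu⟩ : ∃ u : ℤ → ℤ, u = fun x : ℤ => x % (p : ℤ) := ⟨_, rfl⟩
  obtain ⟨v, hv⟩ : ∃ v : ℤ → ℤ, v = fun x : ℤ => (x / (p : ℤ)) % (p : ℤ) := ⟨_, rfl⟩
  obtain ⟨w, hw⟩ : ∃ w : ℤ → ℤ, w = fun x : ℤ => x / (p : ℤ) / (p : ℤ) := ⟨_, rfl⟩
  have hx : ∀ x, x = u x + p * (v x + p * w x) := by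
    intro x
    rw [hu, hv, hw]
    dsimp only
    rw [Int.emod_add_mul_ediv, Int.emod_add_mul_ediv]
  have key : ∀ x y : ℤ, ∑ z : ι × ZMod p × κ,
      (F (u x) z.1 * (if (v x : ZMod p) = z.2.1 then 1 else 0) * F' (w x) z.2.2) *
      (G (u y) z.1 * (if (v y : ZMod p) = z.2.1 then 1 else 0) * G' (w y) z.2.2) =
      (∑ j, F (u x) j * G (u y) j) * (if (v x : ZMod p) = v y then 1 else 0) *
        ∑ j, F' (w x) j * G' (w y) j := by
    intro x y
    rw [Fintype.sum_prod_type]
    simp only [Fintype.sum_prod_type]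
    have e1 : ∀ j : ι, ∑ b : ZMod p, ∑ k : κ,
        (F (u x) j * (if (v x : ZMod p) = b then 1 else 0) * F' (w x) k) *
        (G (u y) j * (if (v y : ZMod p) = b then 1 else 0) * G' (w y) k) =
        (F (u x) j * G (u y) j) * ((if (v x : ZMod p) = v y then 1 else 0) *
        ∑ j, F' (w x) j * G' (w y) j) := by
      intro j
      rw [Finset.sum_eq_single (v x : ZMod p)]
      · rw [Finset.mul_sum, Finset.mul_sum]
        refine Finset.sum_congr rfl fun k _ => ?_
        by_cases h5 : (v x : ZMod p) = v y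
        · simp [h5]; ring
        · have h6 : ¬ (v y : ZMod p) = v x := fun h => h5 h.symm
          simp [h5, h6]
      · intro b _ hb
        refine Finset.sum_eq_zero fun k _ => ?_
        rw [if_neg (fun h => hb h.symm)]
        ring
      · intro h5; exact absurd (Finset.mem_univ _) h5
    rw [Finset.sum_congr rfl fun j _ => e1 j, ← Finset.sum_mul]
    ring
  refine ⟨ι × ZMod p × κ, inferInstance,
    fun x z => F (u x) z.1 * (if (v x : ZMod p) = z.2.1 then 1 else 0) * F' (w x) z.2.2,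
    fun y z => G (u y) z.1 * (if (v y : ZMod p) = z.2.1 then 1 else 0) * G' (w y) z.2.2,
    ?_, ?_, ?_⟩
  · rw [Fintype.card_prod, Fintype.card_prod, ZMod.card, ← mul_assoc]
    exact Nat.mul_le_mul (Nat.mul_le_mul_right _ h1) g1
  · intro x
    rw [key, if_pos rfl, mul_one]
    exact mul_ne_zero (h2 _) (g2 _)
  · intro x y hxy
    rw [key]
    by_cases h5 : (v x : ZMod p) = v y
    swap
    · rw [if_neg h5]; ring
    have hvv : v x = v y := by
      have h6 := (ZMod.intCast_eq_intCast_iff_dvd_sub _ _ _).mp h5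
      have h7 : 0 ≤ v x ∧ v x < p := by
        rw [hv]; exact ⟨Int.emod_nonneg _ hpz.ne', Int.emod_lt_of_pos _ hpz⟩
      have h8 : 0 ≤ v y ∧ v y < p := by
        rw [hv]; exact ⟨Int.emod_nonneg _ hpz.ne', Int.emod_lt_of_pos _ hpz⟩
      have h9 : v y - v x = 0 := by
        refine Int.eq_zero_of_abs_lt_dvd h6 ?_
        rw [abs_lt]
        constructor <;> linarith [h7.1, h7.2, h8.1, h8.2]
      linarith
    have hdiff : x - y = (u x - u y) + (p : ℤ) ^ 2 * (w x - w y) := by
      calc x - y = (u x + p * (v x + p * w x)) - (u y + p * (v y + p * w y)) := by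
            rw [← hx x, ← hx y]
        _ = _ := by rw [hvv]; ring
    by_cases hux : u x = u y
    · have h6 : ¬ SqMod (p ^ a) (w x - w y) := by
        intro h7
        apply hxy
        rw [hdiff, hux, sub_self, zero_add]
        exact sqMod_of_dvd_sq h7
      rw [g3 _ _ h6]
      ring
    · have h6 : ¬ SqMod p (u x - u y) := by
        intro h7
        have h8 : ¬ (p : ℤ) ∣ u x - u y := by
          intro h9
          have k1 : 0 ≤ u x ∧ u x < p := by
            rw [hu]; exact ⟨Int.emod_nonneg _ hpz.ne', Int.emod_lt_of_pos _ hpz⟩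
          have k2 : 0 ≤ u y ∧ u y < p := by
            rw [hu]; exact ⟨Int.emod_nonneg _ hpz.ne', Int.emod_lt_of_pos _ hpz⟩
          have : u x - u y = 0 := by
            refine Int.eq_zero_of_abs_lt_dvd h9 ?_
            rw [abs_lt]
            constructor <;> linarith [k1.1, k1.2, k2.1, k2.2]
          exact hux (by linarith)
        apply hxy
        refine sqMod_lift hp ?_ ?_ _
        · obtain ⟨n, hn⟩ := h7
          refine ⟨n, ?_⟩
          rw [hdiff]
          have : u x - u y + (p : ℤ) ^ 2 * (w x - w y) - n ^ 2 =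
            (u x - u y - n ^ 2) + p * (p * (w x - w y)) := by ring
          rw [this]
          exact dvd_add hn (dvd_mul_right _ _)
        · intro h9
          apply h8
          rw [hdiff] at h9
          have : u x - u y = (u x - u y + (p : ℤ) ^ 2 * (w x - w y)) -
            p * (p * (w x - w y)) := by ring
          rw [this]
          exact dvd_sub h9 (dvd_mul_right _ _)
      rw [h3 _ _ h6]
      ring

theorem rmat_pow (hp : p ≠ 2) (e : ℕ) :
    RMat (p ^ e) (((p + 1) / 2) ^ ((e + 1) / 2) * p ^ (e / 2)) := by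
  induction e using Nat.twoStepInduction with
  | zero => simpa using RMat.one
  | one => simpa using rmat_prime hp
  | more e ih _ =>
    have := (rmat_prime hp).step hp ih
    have e1 : (e + 2 + 1) / 2 = (e + 1) / 2 + 1 := by omega
    have e2 : (e + 2) / 2 = e / 2 + 1 := by omega
    have e3 : ∀ b q : ℕ, b ^ ((e + 1) / 2 + 1) * q ^ (e / 2 + 1) =
        b * q * (b ^ ((e + 1) / 2) * q ^ (e / 2)) := by
      intro b q
      rw [pow_succ, pow_succ]
      ring
    rw [e1, e2, e3]
    exact this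

omit [Fact p.Prime] in
theorem rmat_prod (e : ℕ → ℕ) (P : Finset ℕ) (hP : ∀ p ∈ P, p.Prime ∧ p ≠ 2) :
    RMat (∏ p ∈ P, p ^ e p) (∏ p ∈ P, ((p + 1) / 2) ^ ((e p + 1) / 2) * p ^ (e p / 2)) := by
  classical
  induction P using Finset.induction_on with
  | empty => simpa using RMat.one
  | insert q P hq ih =>
    have ih' := ih fun r hr => hP r (Finset.mem_insert_of_mem hr)
    have hqq := hP q (Finset.mem_insert_self q P)
    have : Fact q.Prime := ⟨hqq.1⟩
    have hc : (q ^ e q).Coprime (∏ r ∈ P, r ^ e r) := by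
      refine Nat.Coprime.prod_right fun r hr => ?_
      have hrr := hP r (Finset.mem_insert_of_mem hr)
      have : q ≠ r := fun h => hq (h ▸ hr)
      exact Nat.Coprime.pow _ _ ((Nat.coprime_primes hqq.1 hrr.1).mpr this)
    rw [Finset.prod_insert hq, Finset.prod_insert hq]
    exact (rmat_pow hqq.2 (e q)).mul hc ih'

omit [Fact p.Prime] in
theorem card_le_rank (n N : ℕ) (hn : Odd n) (hN : 0 < N) (hc : N.Coprime n) (S : Finset ℤ)
    (hS : ∀ x ∈ S, ∀ y ∈ S, x ≠ y → ¬ SqMod (N * n) (x - y)) :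
    S.card ≤ N * ∏ p ∈ n.primeFactors,
      ((p + 1) / 2) ^ ((n.factorization p + 1) / 2) * p ^ (n.factorization p / 2) := by
  have hn0 : n ≠ 0 := by rintro rfl; simp at hn
  have h1 := rmat_prod (fun p => n.factorization p) n.primeFactors
    (fun p hp => ⟨Nat.prime_of_mem_primeFactors hp, by
      rintro rfl
      have h2 := Nat.dvd_of_mem_primeFactors hp
      rw [Nat.odd_iff] at hn
      omega⟩)
  have h2 : ∏ p ∈ n.primeFactors, p ^ n.factorization p = n :=
    Nat.prod_factorization_pow_eq_self hn0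
  rw [h2] at h1
  exact ((RMat.triv N hN).mul hc h1).bound S hS

end Vale.Agent.P042.H485
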