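import Vale.Agent.P042.R2.H485.Main
import Vale.Agent.P042.R2.H485.Rank

/-!
# Subsets of `ZMod m` without square differences
-/

open Finset

namespace Vale.Agent.P042.H485

/-- no difference of two distinct elements is a square of `ZMod m` -/
def NoSquareDiff {m : ℕ} (S : Finset (ZMod m)) : Prop :=
  ∀ x ∈ S, ∀ y ∈ S, x ≠ y → ¬ IsSquare (x - y)

theorem isSquare_of_sqMod {m : ℕ} {t : ℤ} (h : SqMod m t) : IsSquare (t : ZMod m) := by
  obtain ⟨n, hn⟩ := h
  refine ⟨(n : ZMod m), ?_⟩
  have := (ZMod.intCast_zmod_eq_zero_iff_dvd (t - n ^ 2) m).mpr hn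
  push_cast at this
  linear_combination this

/-- lift to the integers -/
theorem exists_lift {m : ℕ} (hm : 0 < m) (S : Finset (ZMod m)) (hS : NoSquareDiff S) :
    ∃ T : Finset ℤ, T.card = S.card ∧
      ∀ x ∈ T, ∀ y ∈ T, x ≠ y → ¬ SqMod m (x - y) := by
  classical
  have : NeZero m := ⟨hm.ne'⟩
  refine ⟨S.image (fun x => (x.val : ℤ)), ?_, ?_⟩
  · exact Finset.card_image_of_injective _ fun x y h => ZMod.val_injective m (by exact_mod_cast h)
  · intro x hx y hy hxy h
    obtain ⟨x', hx', rfl⟩ := Finset.mem_image.mp hx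
    obtain ⟨y', hy', rfl⟩ := Finset.mem_image.mp hy
    have hne : x' ≠ y' := fun h => hxy (by rw [h])
    refine hS x' hx' y' hy' hne ?_
    have := isSquare_of_sqMod h
    push_cast at this
    simpa [ZMod.natCast_zmod_val] using this

theorem W_one_le {p : ℕ} (hp : p.Prime) (hp2 : p ≠ 2) (r : ℕ) :
    W (ang r) p 1 ≤ Real.sqrt p * cotConst r ^ (if p % 4 = 3 then 1 else 0) := by
  have hp1 : (1 : ℝ) ≤ p := by exact_mod_cast hp.one_lt.le
  have hk : 0 ≤ Real.cos (ang r) / Real.sin (ang r) := by
    have hsin : 0 < Real.sin (ang r) := Real.sin_pos_of_pos_of_lt_pi (ang_pos r)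
      (by linarith [Real.pi_pos, ang_le r])
    have hcos : 0 ≤ Real.cos (ang r) := Real.cos_nonneg_of_mem_Icc
      ⟨by linarith [ang_pos r, Real.pi_pos], ang_le r⟩
    positivity
  have hs1 : 1 ≤ Real.sqrt p := Real.one_le_sqrt.mpr hp1
  have hodd : p % 2 = 1 := (Nat.Prime.eq_two_or_odd hp).resolve_left hp2
  unfold W
  by_cases h : p % 4 = 1
  · rw [if_pos h, if_neg (by omega)]
    simp
  · rw [if_neg h, if_pos (by omega)]
    have hb := beta_le hs1 hk
    rw [Real.sq_sqrt (by linarith), ang_const] at hb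
    simpa using hb

theorem card_le_squarefree (n N : ℕ) (hn : Odd n) (hsq : Squarefree n) (hN : 0 < N)
    (hc : N.Coprime n) (S : Finset ℤ)
    (hS : ∀ x ∈ S, ∀ y ∈ S, x ≠ y → ¬ SqMod (N * n) (x - y)) :
    (S.card : ℝ) ≤ N * (Real.sqrt n * cotConst (numThree n) ^ numThree n) := by
  have hn0 : n ≠ 0 := by rintro rfl; simp at hn
  refine (card_le_prod n N hn hN hc S hS).trans ?_
  refine mul_le_mul_of_nonneg_left ?_ (by positivity)
  have hne2 : ∀ p ∈ n.primeFactors, p ≠ 2 := by
    rintro p hp rfl
    have h2 := Nat.dvd_of_mem_primeFactors hp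
    rw [Nat.odd_iff] at hn
    omega
  calc ∏ p ∈ n.primeFactors, W (ang (numThree n)) p (n.factorization p)
      ≤ ∏ p ∈ n.primeFactors, (Real.sqrt p *
          cotConst (numThree n) ^ (if p % 4 = 3 then 1 else 0)) := by
        refine Finset.prod_le_prod (fun p _ => W_nonneg _ _ _) fun p hp => ?_
        have hpp := Nat.prime_of_mem_primeFactors hp
        have h1 : n.factorization p = 1 :=
          Nat.factorization_eq_one_of_squarefree hsq hpp (Nat.dvd_of_mem_primeFactors hp)
        rw [h1]
        exact W_one_le hpp (hne2 p hp) _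
    _ = Real.sqrt n * cotConst (numThree n) ^ numThree n := by
        rw [Finset.prod_mul_distrib, Finset.prod_pow_eq_pow_sum]
        congr 1
        · simp only [Real.sqrt_eq_rpow]
          rw [Real.finsetProd_rpow _ _ (fun p _ => by positivity)]
          congr 1
          rw [← Nat.cast_prod]
          congr 1
          exact Nat.prod_primeFactors_of_squarefree hsq
        · congr 1
          rw [numThree, Finset.card_filter]

theorem numThree_le (n : ℕ) (hn : Odd n) : 3 ^ numThree n ≤ n := by
  have hn0 : n ≠ 0 := by rintro rfl; simp at hn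
  calc 3 ^ numThree n ≤ 3 ^ n.primeFactors.card :=
        Nat.pow_le_pow_right (by norm_num) (Finset.card_filter_le _ _)
    _ ≤ ∏ p ∈ n.primeFactors, p := by
        refine Finset.pow_card_le_prod _ _ _ fun p hp => ?_
        have hpp := Nat.prime_of_mem_primeFactors hp
        have : p ≠ 2 := by
          rintro rfl
          have h2 := Nat.dvd_of_mem_primeFactors hp
          rw [Nat.odd_iff] at hn
          omega
        have := hpp.two_le
        omega
    _ ≤ n := Nat.le_of_dvd (Nat.pos_of_ne_zero hn0) (Nat.prod_primeFactors_dvd n)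

theorem cotConst_le (r : ℕ) : cotConst r ≤ max 1 (r : ℝ) := by
  unfold cotConst
  refine max_le (le_max_left _ _) ?_
  rcases Nat.eq_zero_or_pos r with rfl | hr
  · simp
  refine le_trans ?_ (le_max_right _ _)
  have hr1 : (1 : ℝ) ≤ r := by exact_mod_cast hr
  have hpi := Real.pi_gt_three
  rcases eq_or_lt_of_le hr1 with h | h
  · rw [← h]
    simp [Real.cos_pi_div_two]
  · set x := Real.pi / (2 * r) with hx
    have hx0 : 0 < x := by positivity
    have hx1 : x < Real.pi / 2 := by
      rw [hx, div_lt_div_iff₀ (by positivity) (by norm_num)]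
      nlinarith
    have h1 := Real.lt_tan hx0 hx1
    rw [Real.tan_eq_sin_div_cos] at h1
    have hcos : 0 < Real.cos x := Real.cos_pos_of_mem_Ioo ⟨by linarith, hx1⟩
    have hsin : 0 < Real.sin x := Real.sin_pos_of_pos_of_lt_pi hx0 (by linarith)
    rw [lt_div_iff₀ hcos] at h1
    rw [div_le_iff₀ hsin]
    have h2 : (r : ℝ) * x = Real.pi / 2 := by rw [hx]; field_simp
    nlinarith

theorem rank_simple (n N : ℕ) (hn : Odd n) (hN : 0 < N) (hc : N.Coprime n) (S : Finset ℤ)
    (hS : ∀ x ∈ S, ∀ y ∈ S, x ≠ y → ¬ SqMod (N * n) (x - y)) :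
    (S.card : ℝ) ≤ N * (n * (2 / 3 : ℝ) ^ weightThree n) := by
  have hn0 : n ≠ 0 := by rintro rfl; simp at hn
  have h1 := card_le_rank n N hn hN hc S hS
  have h2 : (S.card : ℝ) ≤ N * ∏ p ∈ n.primeFactors,
      ((((p + 1) / 2 : ℕ) : ℝ) ^ ((n.factorization p + 1) / 2) *
        (p : ℝ) ^ (n.factorization p / 2)) := by exact_mod_cast h1
  refine h2.trans (mul_le_mul_of_nonneg_left ?_ (by positivity))
  calc ∏ p ∈ n.primeFactors, ((((p + 1) / 2 : ℕ) : ℝ) ^ ((n.factorization p + 1) / 2) *
        (p : ℝ) ^ (n.factorization p / 2))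
      ≤ ∏ p ∈ n.primeFactors, (((p ^ n.factorization p : ℕ) : ℝ) *
          (2 / 3 : ℝ) ^ (if p % 4 = 3 then (n.factorization p + 1) / 2 else 0)) := by
        refine Finset.prod_le_prod (fun p _ => by positivity) fun p hp => ?_
        have hpp := Nat.prime_of_mem_primeFactors hp
        have hp2 : p ≠ 2 := by
          rintro rfl
          have h2 := Nat.dvd_of_mem_primeFactors hp
          rw [Nat.odd_iff] at hn
          omega
        have hp3 : 3 ≤ p := by have := hpp.two_le; omega
        have hodd : p % 2 = 1 := (Nat.Prime.eq_two_or_odd hpp).resolve_left hp2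
        have e1 : (((p + 1) / 2 : ℕ) : ℝ) ≤ (2 / 3) * p := by
          have : 2 * ((p + 1) / 2) = p + 1 := by omega
          have h3 : (2 : ℝ) * (((p + 1) / 2 : ℕ) : ℝ) = p + 1 := by exact_mod_cast this
          have h4 : (3 : ℝ) ≤ p := by exact_mod_cast hp3
          linarith
        obtain ⟨k, hk⟩ : ∃ k, k = (n.factorization p + 1) / 2 := ⟨_, rfl⟩
        have e2 : n.factorization p = k + n.factorization p / 2 := by omega
        rw [← hk]
        have e3 : ((2 / 3 : ℝ)) ^ k ≤ (2 / 3 : ℝ) ^ (if p % 4 = 3 then k else 0) := by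
          split_ifs
          · exact le_rfl
          · rw [pow_zero]
            exact pow_le_one₀ (by norm_num) (by norm_num)
        calc (((p + 1) / 2 : ℕ) : ℝ) ^ k * (p : ℝ) ^ (n.factorization p / 2)
            ≤ ((2 / 3) * p) ^ k * (p : ℝ) ^ (n.factorization p / 2) := by gcongr
          _ = (p : ℝ) ^ (k + n.factorization p / 2) * (2 / 3 : ℝ) ^ k := by
              rw [mul_pow, pow_add]; ring
          _ = (p : ℝ) ^ n.factorization p * (2 / 3 : ℝ) ^ k := by rw [← e2]
          _ ≤ (p : ℝ) ^ n.factorization p * (2 / 3 : ℝ) ^ (if p % 4 = 3 then k else 0) := by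
              gcongr
          _ = _ := by push_cast; rfl
    _ = n * (2 / 3 : ℝ) ^ weightThree n := by
        rw [Finset.prod_mul_distrib, Finset.prod_pow_eq_pow_sum]
        congr 1
        · rw [← Nat.cast_prod]
          congr 1
          exact Nat.prod_factorization_pow_eq_self hn0
        · rw [weightThree, Finset.sum_filter]

/-- the bound for all odd moduli -/
theorem card_le_all (n N : ℕ) (hn : Odd n) (h16 : 16 ≤ n) (hN : 0 < N) (hc : N.Coprime n)
    (S : Finset ℤ) (hS : ∀ x ∈ S, ∀ y ∈ S, x ≠ y → ¬ SqMod (N * n) (x - y)) :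
    (S.card : ℝ) ≤ N * (n * Real.exp (-(Real.log n / (24 * Real.log (Real.log n))))) := by
  have hn0 : (0 : ℝ) < n := by exact_mod_cast (by omega : 0 < n)
  have h16' : (16 : ℝ) ≤ n := by exact_mod_cast h16
  obtain ⟨L, hL⟩ : ∃ L : ℝ, L = Real.log n := ⟨_, rfl⟩
  have hLe : Real.exp 1 ≤ L := by
    have h1 : Real.log 16 ≤ L := by rw [hL]; exact Real.log_le_log (by norm_num) h16'
    have h2 : Real.log 16 = 4 * Real.log 2 := by
      rw [show (16 : ℝ) = 2 ^ (4 : ℕ) by norm_num, Real.log_pow]; norm_num
    have := Real.log_two_gt_d9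
    have := Real.exp_one_lt_d9
    linarith
  have hL1 : 1 < L := lt_of_lt_of_le (by linarith [Real.add_one_lt_exp (one_ne_zero)]) hLe
  have hl1 : 1 ≤ Real.log L := by
    have := Real.log_le_log (Real.exp_pos 1) hLe
    rwa [Real.log_exp] at this
  have hnexp : (n : ℝ) = Real.exp L := by rw [hL, Real.exp_log hn0]
  rw [← hL]
  have hK1 := one_le_cotConst (numThree n)
  have hKL : cotConst (numThree n) ≤ L := by
    refine (cotConst_le _).trans (max_le hL1.le ?_)
    have h3 := numThree_le n hn
    have h4 : ((3 : ℝ)) ^ numThree n ≤ n := by exact_mod_cast h3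
    have h5 := Real.log_le_log (by positivity) h4
    rw [Real.log_pow, ← hL] at h5
    have h6 : 1 ≤ Real.log 3 := by
      have h7 : Real.exp 1 ≤ 3 := by have := Real.exp_one_lt_d9; linarith
      have := Real.log_le_log (Real.exp_pos 1) h7
      rwa [Real.log_exp] at this
    have h8 : (0 : ℝ) ≤ numThree n := by positivity
    nlinarith
  by_cases hcase : cotConst (numThree n) ^ weightThree n ≤ Real.exp (L / 8)
  · refine (card_le n N hn hN hc S hS).trans (mul_le_mul_of_nonneg_left ?_ (by positivity))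
    have h1 : (n : ℝ) ^ (3 / 4 : ℝ) = Real.exp (L * (3 / 4)) := by
      rw [Real.rpow_def_of_pos hn0, ← hL]
    calc (n : ℝ) ^ (3 / 4 : ℝ) * cotConst (numThree n) ^ weightThree n
        ≤ Real.exp (L * (3 / 4)) * Real.exp (L / 8) := by
          rw [h1]; exact mul_le_mul_of_nonneg_left hcase (Real.exp_pos _).le
      _ = Real.exp (L * (3 / 4) + L / 8) := (Real.exp_add _ _).symm
      _ ≤ Real.exp (L + -(L / (24 * Real.log L))) := by
          apply Real.exp_le_exp.mpr
          have : L / (24 * Real.log L) ≤ L / 8 := by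
            apply div_le_div_of_nonneg_left (by linarith) (by norm_num)
            linarith
          linarith
      _ = _ := by rw [Real.exp_add, ← hnexp]
  · refine (rank_simple n N hn hN hc S hS).trans (mul_le_mul_of_nonneg_left ?_ (by positivity))
    refine mul_le_mul_of_nonneg_left ?_ hn0.le
    push Not at hcase
    have h1 := Real.log_lt_log (Real.exp_pos _) hcase
    rw [Real.log_exp, Real.log_pow] at h1
    have h2 : Real.log (cotConst (numThree n)) ≤ Real.log L :=
      Real.log_le_log (by linarith) hKL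
    have h3 : (0 : ℝ) ≤ weightThree n := by positivity
    have h4 : L / 8 ≤ weightThree n * Real.log L := by nlinarith
    have h5 : L / (8 * Real.log L) ≤ weightThree n := by
      rw [div_le_iff₀ (by positivity)]
      nlinarith
    have h6 : Real.log (2 / 3) ≤ -(1 / 3) := by
      have := Real.log_le_sub_one_of_pos (show (0 : ℝ) < 2 / 3 by norm_num)
      linarith
    rw [← Real.rpow_natCast, Real.rpow_def_of_pos (by norm_num)]
    apply Real.exp_le_exp.mpr
    have h7 : L / (24 * Real.log L) = (1 / 3) * (L / (8 * Real.log L)) := by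
      field_simp
      norm_num
    rw [h7]
    nlinarith

end Vale.Agent.P042.H485
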