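import Mathlib

/-!
# Kernels for sets without square differences modulo `M`
-/

open Finset

namespace Vale.Agent.P042.H485

/-- `t` is congruent to a square modulo `M` -/
def SqMod (M : ℕ) (t : ℤ) : Prop := ∃ n : ℤ, (M : ℤ) ∣ t - n ^ 2

/-- the function `t ↦ e (θ t)` -/
noncomputable def ee (θ : ℝ) (t : ℤ) : ℂ := Complex.exp (2 * Real.pi * θ * t * Complex.I)

/-- complex numbers of argument at most `φ` in absolute value -/
def Sec (φ : ℝ) (z : ℂ) : Prop :=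
  ∃ ρ θ : ℝ, 0 ≤ ρ ∧ |θ| ≤ φ ∧ z = ρ * Complex.exp (θ * Complex.I)

/-- a kernel for the modulus `M` with angle `φ` and bound `β` -/
def Ker (M : ℕ) (φ β : ℝ) : Prop :=
  ∃ (ι : Type) (_ : Fintype ι) (a : ι → ℂ) (θ : ι → ℝ), (∀ j, Sec φ (a j)) ∧
    (1 + ∑ j, a j = (β : ℂ)) ∧
    ∀ t : ℤ, ¬ SqMod M t → 1 + ∑ j, a j * ee (θ j) t = 0

theorem Sec.re_nonneg {φ : ℝ} {z : ℂ} (h : Sec φ z) (hφ : φ ≤ Real.pi / 2) : 0 ≤ z.re := by
  obtain ⟨ρ, θ, h1, h2, rfl⟩ := h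
  rw [Complex.re_ofReal_mul, Complex.exp_ofReal_mul_I_re]
  exact mul_nonneg h1 (Real.cos_nonneg_of_mem_Icc ⟨by linarith [neg_abs_le θ], by
    linarith [le_abs_self θ]⟩)

theorem Sec.mono {φ φ' : ℝ} {z : ℂ} (h : Sec φ z) (hφ : φ ≤ φ') : Sec φ' z := by
  obtain ⟨ρ, θ, h1, h2, h3⟩ := h
  exact ⟨ρ, θ, h1, h2.trans hφ, h3⟩

theorem Sec.mul {φ φ' : ℝ} {z w : ℂ} (h : Sec φ z) (h' : Sec φ' w) : Sec (φ + φ') (z * w) := by
  obtain ⟨ρ, θ, h1, h2, h3⟩ := h
  obtain ⟨ρ', θ', h1', h2', h3'⟩ := h'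
  refine ⟨ρ * ρ', θ + θ', mul_nonneg h1 h1', (abs_add_le _ _).trans (by linarith), ?_⟩
  rw [h3, h3']
  push_cast
  rw [add_mul, Complex.exp_add]
  ring

theorem sec_of_nonneg {φ : ℝ} (hφ : 0 ≤ φ) {x : ℝ} (hx : 0 ≤ x) : Sec φ (x : ℂ) :=
  ⟨x, 0, hx, by simpa using hφ, by simp⟩

theorem Sec.smul {φ : ℝ} {z : ℂ} (h : Sec φ z) {x : ℝ} (hx : 0 ≤ x) : Sec φ ((x : ℂ) * z) := by
  obtain ⟨ρ, θ, h1, h2, h3⟩ := h
  exact ⟨x * ρ, θ, mul_nonneg hx h1, h2, by rw [h3]; push_cast; ring⟩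

theorem Sec.nonneg {φ : ℝ} {z : ℂ} (h : Sec φ z) : 0 ≤ φ := by
  obtain ⟨ρ, θ, h1, h2, h3⟩ := h
  exact (abs_nonneg _).trans h2

theorem ee_zero_right (θ : ℝ) : ee θ 0 = 1 := by simp [ee]

theorem ee_zero_left (t : ℤ) : ee 0 t = 1 := by simp [ee]

theorem ee_add_left (θ θ' : ℝ) (t : ℤ) : ee (θ + θ') t = ee θ t * ee θ' t := by
  simp only [ee]
  rw [← Complex.exp_add]
  congr 1
  push_cast
  ring

theorem ee_sub_right (θ : ℝ) (s t : ℤ) :
    ee θ (s - t) = ee θ s * (starRingEnd ℂ) (ee θ t) := by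
  simp only [ee]
  rw [← Complex.exp_conj, ← Complex.exp_add]
  congr 1
  simp only [map_mul, Complex.conj_I, Complex.conj_ofReal, map_ofNat, map_intCast]
  push_cast
  ring

theorem Ker.one : Ker 1 0 1 :=
  ⟨Empty, inferInstance, Empty.elim, Empty.elim, fun j => j.elim, by simp, fun t ht =>
    absurd ⟨0, by simp⟩ ht⟩

theorem Ker.mono {M : ℕ} {φ φ' β : ℝ} (h : Ker M φ β) (hφ : φ ≤ φ') : Ker M φ' β := by
  obtain ⟨ι, I, a, θ, h1, h2, h3⟩ := h
  exact ⟨ι, I, a, θ, fun j => (h1 j).mono hφ, h2, h3⟩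

/-- the bound given by a kernel -/
theorem Ker.bound {M : ℕ} {φ β : ℝ} (h : Ker M φ β) (hφ : φ ≤ Real.pi / 2) (S : Finset ℤ)
    (hS : ∀ x ∈ S, ∀ y ∈ S, x ≠ y → ¬ SqMod M (x - y)) : (S.card : ℝ) ≤ β := by
  obtain ⟨ι, I, a, θ, h1, h2, h3⟩ := h
  have hβ : 0 ≤ β := by
    have : β = 1 + ∑ j, (a j).re := by
      have := congrArg Complex.re h2
      simpa using this.symm
    rw [this]
    have : 0 ≤ ∑ j, (a j).re := Finset.sum_nonneg fun j _ => (h1 j).re_nonneg hφ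
    linarith
  rcases S.eq_empty_or_nonempty with rfl | hne
  · simpa using hβ
  have e1 : ∑ x ∈ S, ∑ y ∈ S, (1 + ∑ j, a j * ee (θ j) (x - y)) = (S.card : ℂ) * β := by
    have : ∀ x ∈ S, ∑ y ∈ S, (1 + ∑ j, a j * ee (θ j) (x - y)) = (β : ℂ) := by
      intro x hx
      rw [Finset.sum_eq_single_of_mem x hx]
      · simp only [sub_self, ee_zero_right, mul_one]
        exact h2
      · intro y hy hyx
        exact h3 _ (hS x hx y hy (Ne.symm hyx))
    rw [Finset.sum_congr rfl this, Finset.sum_const, nsmul_eq_mul]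
  have e2 : ∑ x ∈ S, ∑ y ∈ S, (1 + ∑ j, a j * ee (θ j) (x - y)) =
      (S.card : ℂ) * S.card + ∑ j, a j * (Complex.normSq (∑ x ∈ S, ee (θ j) x) : ℂ) := by
    simp only [Finset.sum_add_distrib]
    congr 1
    · simp
    · have : ∀ x ∈ S, ∑ y ∈ S, ∑ j, a j * ee (θ j) (x - y) =
          ∑ j, ∑ y ∈ S, a j * ee (θ j) (x - y) := fun x _ => Finset.sum_comm
      rw [Finset.sum_congr rfl this, Finset.sum_comm]
      refine Finset.sum_congr rfl fun j _ => ?_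
      rw [← Complex.mul_conj, map_sum, Finset.sum_mul_sum, Finset.mul_sum]
      refine Finset.sum_congr rfl fun x _ => ?_
      rw [Finset.mul_sum]
      refine Finset.sum_congr rfl fun y _ => ?_
      rw [ee_sub_right]
  have e3 : (S.card : ℝ) * β = (S.card : ℝ) * S.card +
      ∑ j, (a j).re * Complex.normSq (∑ x ∈ S, ee (θ j) x) := by
    have := congrArg Complex.re (e1.symm.trans e2)
    rw [Complex.add_re, Complex.re_sum] at this
    have k1 : ((S.card : ℂ) * (β : ℂ)).re = (S.card : ℝ) * β := by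
      rw [← Complex.ofReal_natCast, ← Complex.ofReal_mul, Complex.ofReal_re]
    have k2 : ((S.card : ℂ) * (S.card : ℂ)).re = (S.card : ℝ) * S.card := by
      rw [← Complex.ofReal_natCast, ← Complex.ofReal_mul, Complex.ofReal_re]
    rw [k1, k2] at this
    rw [this]
    congr 1
    refine Finset.sum_congr rfl fun j _ => ?_
    rw [Complex.re_mul_ofReal]
  have e4 : 0 ≤ ∑ j, (a j).re * Complex.normSq (∑ x ∈ S, ee (θ j) x) :=
    Finset.sum_nonneg fun j _ => mul_nonneg ((h1 j).re_nonneg hφ) (Complex.normSq_nonneg _)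
  have hc : (0 : ℝ) < S.card := by exact_mod_cast hne.card_pos
  have : (S.card : ℝ) * S.card ≤ S.card * β := by linarith
  exact le_of_mul_le_mul_left this hc

/-- squares modulo coprime moduli -/
theorem SqMod.mul {M N : ℕ} (hc : M.Coprime N) {t : ℤ} (h : SqMod M t) (h' : SqMod N t) :
    SqMod (M * N) t := by
  obtain ⟨m, hm⟩ := h
  obtain ⟨n, hn⟩ := h'
  have hcz : IsCoprime (M : ℤ) (N : ℤ) := by exact_mod_cast Nat.isCoprime_iff_coprime.mpr hc
  obtain ⟨u, v, huv⟩ := hcz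
  refine ⟨m * (v * N) + n * (u * M), ?_⟩
  have h1 : (M : ℤ) ∣ (m * (v * N) + n * (u * M)) - m := by
    refine ⟨-(u * m) + n * u, ?_⟩
    have : v * N = 1 - u * M := by linarith
    rw [this]; ring
  have h2 : (N : ℤ) ∣ (m * (v * N) + n * (u * M)) - n := by
    refine ⟨m * v - n * v, ?_⟩
    have : u * M = 1 - v * N := by linarith
    rw [this]; ring
  have h3 : (M : ℤ) ∣ t - (m * (v * N) + n * (u * M)) ^ 2 := by
    have : t - (m * (v * N) + n * (u * M)) ^ 2 = (t - m ^ 2) -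
      ((m * (v * N) + n * (u * M)) - m) * ((m * (v * N) + n * (u * M)) + m) := by ring
    rw [this]
    exact dvd_sub hm (h1.mul_right _)
  have h4 : (N : ℤ) ∣ t - (m * (v * N) + n * (u * M)) ^ 2 := by
    have : t - (m * (v * N) + n * (u * M)) ^ 2 = (t - n ^ 2) -
      ((m * (v * N) + n * (u * M)) - n) * ((m * (v * N) + n * (u * M)) + n) := by ring
    rw [this]
    exact dvd_sub hn (h2.mul_right _)
  push_cast
  exact IsCoprime.mul_dvd ⟨u, v, huv⟩ h3 h4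

/-- kernels of coprime moduli multiply -/
theorem Ker.mul {M N : ℕ} (hc : M.Coprime N) {φ φ' β β' : ℝ} (hφ : 0 ≤ φ) (hφ' : 0 ≤ φ')
    (h : Ker M φ β) (h' : Ker N φ' β') : Ker (M * N) (φ + φ') (β * β') := by
  obtain ⟨ι, I, a, θ, h1, h2, h3⟩ := h
  obtain ⟨κ, J, b, η, g1, g2, g3⟩ := h'
  have key : ∀ t : ℤ, 1 + ∑ j : ι ⊕ κ ⊕ (ι × κ),
      (Sum.elim a (Sum.elim b fun z => a z.1 * b z.2)) j *
        ee ((Sum.elim θ (Sum.elim η fun z => θ z.1 + η z.2)) j) t =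
      (1 + ∑ j, a j * ee (θ j) t) * (1 + ∑ j, b j * ee (η j) t) := by
    intro t
    rw [Fintype.sum_sum_type, Fintype.sum_sum_type, Fintype.sum_prod_type]
    simp only [Sum.elim_inl, Sum.elim_inr]
    have : ∑ x, ∑ y, a x * b y * ee (θ x + η y) t =
        (∑ j, a j * ee (θ j) t) * (∑ j, b j * ee (η j) t) := by
      rw [Finset.sum_mul_sum]
      refine Finset.sum_congr rfl fun x _ => Finset.sum_congr rfl fun y _ => ?_
      rw [ee_add_left]; ring
    rw [this]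
    ring
  refine ⟨ι ⊕ κ ⊕ (ι × κ), inferInstance, Sum.elim a (Sum.elim b fun z => a z.1 * b z.2),
    Sum.elim θ (Sum.elim η fun z => θ z.1 + η z.2), ?_, ?_, ?_⟩
  · rintro (j | j | j)
    · exact (h1 j).mono (by linarith)
    · exact (g1 j).mono (by linarith)
    · exact (h1 _).mul (g1 _)
  · have := key 0
    simp only [ee_zero_right, mul_one] at this
    rw [this, h2, g2]
    push_cast
    rfl
  · intro t ht
    rw [key]
    by_cases hM : SqMod M t
    · have hN : ¬ SqMod N t := fun hN => ht (hM.mul hc hN)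
      rw [g3 t hN, mul_zero]
    · rw [h3 t hM, zero_mul]

end Vale.Agent.P042.H485
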