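import Vale.Agent.P042.R2.H485.Step

/-!
# All odd moduli
-/

open Finset

namespace Vale.Agent.P042.H485

theorem ker_triv (N : ℕ) (hN : 0 < N) : Ker N 0 N := by
  have hN' : (N : ℝ) ≠ 0 := by exact_mod_cast hN.ne'
  have key : ∀ t : ℤ, 1 + ∑ s : Fin N, (if (s : ℕ) = 0 then (0 : ℂ) else 1) *
      ee ((0 + ((s : ℕ) : ℝ)) / N) t = ∑ s : Fin N, ee ((0 + ((s : ℕ) : ℝ)) / N) t := by
    intro t
    have e1 : ∀ s : Fin N, (if (s : ℕ) = 0 then (0 : ℂ) else 1) *
        ee ((0 + ((s : ℕ) : ℝ)) / N) t = ee ((0 + ((s : ℕ) : ℝ)) / N) t -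
        (if s = ⟨0, hN⟩ then 1 else 0) := by
      intro s
      by_cases h : (s : ℕ) = 0
      · have hs : s = ⟨0, hN⟩ := Fin.ext h
        rw [if_pos h, if_pos hs, h]
        simp [ee_zero_left]
      · have hs : s ≠ ⟨0, hN⟩ := fun h2 => h (by rw [h2])
        rw [if_neg h, if_neg hs]
        ring
    rw [Finset.sum_congr rfl fun s _ => e1 s, Finset.sum_sub_distrib]
    simp
  refine ⟨Fin N, inferInstance, fun s => if (s : ℕ) = 0 then 0 else 1,
    fun s => (0 + ((s : ℕ) : ℝ)) / N, ?_, ?_, ?_⟩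
  · intro s
    dsimp only
    split_ifs
    · simpa using sec_of_nonneg (le_refl (0 : ℝ)) (le_refl (0 : ℝ))
    · simpa using sec_of_nonneg (le_refl (0 : ℝ)) (zero_le_one (α := ℝ))
  · have := key 0
    simp only [ee_zero_right, mul_one] at this
    rw [this]
    simp
  · intro t ht
    rw [key]
    refine sum_ee_div N hN 0 t fun h => ht ⟨0, by simpa using h⟩

theorem ker_pow {p : ℕ} [Fact p.Prime] {φ c : ℝ} (hb : BaseKer p φ c) (hp : p ≠ 2) (hφ : 0 ≤ φ)
    (hc : 0 ≤ c) (e : ℕ) :
    Ker (p ^ e) φ ((p * (1 + c) / (p + c)) ^ ((e + 1) / 2) * (p : ℝ) ^ (e / 2)) := by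
  induction e using Nat.twoStepInduction with
  | zero => simpa using Ker.one.mono hφ
  | one => simpa using hb.ker
  | more e ih _ =>
    have := Ker.step hb hp hφ hc ih
    have e1 : (e + 2 + 1) / 2 = (e + 1) / 2 + 1 := by omega
    have e2 : (e + 2) / 2 = e / 2 + 1 := by omega
    have e3 : ∀ b q : ℝ, b ^ ((e + 1) / 2 + 1) * q ^ (e / 2 + 1) =
        q * b * (b ^ ((e + 1) / 2) * q ^ (e / 2)) := by
      intro b q
      rw [pow_succ, pow_succ]
      ring
    rw [e1, e2, e3]
    exact this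

/-- the bound of one prime power; `φ` is the angle of the primes that are 3 modulo 4 -/
noncomputable def W (φ : ℝ) (p e : ℕ) : ℝ :=
  (if p % 4 = 1 then Real.sqrt p else
    p * (1 + Real.sqrt p * (Real.cos φ / Real.sin φ)) /
      (p + Real.sqrt p * (Real.cos φ / Real.sin φ))) ^ ((e + 1) / 2) * (p : ℝ) ^ (e / 2)

theorem ker_prime_pow {φ : ℝ} (h0 : 0 < φ) (h1 : φ ≤ Real.pi / 2) {p : ℕ} (hp : p.Prime)
    (hp2 : p ≠ 2) (e : ℕ) :
    Ker (p ^ e) (if p % 4 = 3 then φ else 0) (W φ p e) := by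
  have : Fact p.Prime := ⟨hp⟩
  have hodd : p % 2 = 1 := (Nat.Prime.eq_two_or_odd hp).resolve_left hp2
  have hcases : p % 4 = 1 ∨ p % 4 = 3 := by omega
  have hp0 : (0 : ℝ) < p := by exact_mod_cast hp.pos
  have hsin : 0 < Real.sin φ := Real.sin_pos_of_pos_of_lt_pi h0 (by linarith [Real.pi_pos])
  have hcos : 0 ≤ Real.cos φ := Real.cos_nonneg_of_mem_Icc ⟨by linarith, h1⟩
  rcases hcases with h | h
  · rw [if_neg (by omega), W, if_pos h]
    have := ker_pow (base_one h) hp2 le_rfl (Real.sqrt_nonneg _) e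
    have e1 : (p : ℝ) * (1 + Real.sqrt p) / (p + Real.sqrt p) = Real.sqrt p := by
      have hs : 0 < Real.sqrt p := Real.sqrt_pos.mpr hp0
      rw [div_eq_iff (by positivity)]
      have := Real.mul_self_sqrt hp0.le
      nlinarith
    rwa [e1] at this
  · rw [if_pos h, W, if_neg (by omega)]
    exact ker_pow (base_three h h0 h1) hp2 h0.le (by positivity) e

theorem ker_prod {φ : ℝ} (h0 : 0 < φ) (h1 : φ ≤ Real.pi / 2) (e : ℕ → ℕ) (P : Finset ℕ)
    (hP : ∀ p ∈ P, p.Prime ∧ p ≠ 2) :
    Ker (∏ p ∈ P, p ^ e p) (φ * (P.filter (fun p => p % 4 = 3)).card) (∏ p ∈ P, W φ p (e p)) := by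
  classical
  induction P using Finset.induction_on with
  | empty => simpa using Ker.one
  | insert p P hp ih =>
    have ih' := ih fun q hq => hP q (Finset.mem_insert_of_mem hq)
    have hpp := hP p (Finset.mem_insert_self p P)
    have hc : (p ^ e p).Coprime (∏ q ∈ P, q ^ e q) := by
      refine Nat.Coprime.prod_right fun q hq => ?_
      have hqq := hP q (Finset.mem_insert_of_mem hq)
      have : p ≠ q := fun h => hp (h ▸ hq)
      exact Nat.Coprime.pow _ _ ((Nat.coprime_primes hpp.1 hqq.1).mpr this)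
    have hk := (ker_prime_pow h0 h1 hpp.1 hpp.2 (e p)).mul hc (by split_ifs <;> linarith)
      (by positivity) ih'
    rw [Finset.prod_insert hp, Finset.prod_insert hp, Finset.filter_insert]
    convert hk using 1
    split_ifs with h3
    · rw [Finset.card_insert_of_notMem (fun h => hp (Finset.mem_filter.mp h).1)]
      push_cast
      ring
    · ring

/-- number of prime factors that are 3 modulo 4 -/
def numThree (n : ℕ) : ℕ := (n.primeFactors.filter (fun p => p % 4 = 3)).card

/-- sum of the numbers `⌈v_p(n) / 2⌉` over these primes -/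
def weightThree (n : ℕ) : ℕ :=
  ∑ p ∈ n.primeFactors.filter (fun p => p % 4 = 3), (n.factorization p + 1) / 2

/-- the constant `max (1, cot (π / (2 r)))` -/
noncomputable def cotConst (r : ℕ) : ℝ :=
  max 1 (Real.cos (Real.pi / (2 * r)) / Real.sin (Real.pi / (2 * r)))

theorem one_le_cotConst (r : ℕ) : 1 ≤ cotConst r := le_max_left _ _

theorem beta_le {s k : ℝ} (hs : 1 ≤ s) (hk : 0 ≤ k) :
    s ^ 2 * (1 + s * k) / (s ^ 2 + s * k) ≤ s * max 1 k := by
  rw [div_le_iff₀ (by positivity)]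
  rcases le_total k 1 with h | h
  · rw [max_eq_left h]
    nlinarith [mul_nonneg (sub_nonneg.mpr hs) (sub_nonneg.mpr h), sq_nonneg s,
      mul_nonneg (mul_nonneg (sq_nonneg s) (sub_nonneg.mpr hs))
        (sub_nonneg.mpr h)]
  · rw [max_eq_right h]
    nlinarith [mul_nonneg (by positivity : (0:ℝ) ≤ s ^ 2) (by nlinarith : (0:ℝ) ≤ k ^ 2 - 1)]

theorem sqrt_pow_le {p : ℝ} (hp : 1 ≤ p) (e : ℕ) :
    Real.sqrt p ^ ((e + 1) / 2) * p ^ (e / 2) ≤ (p ^ e) ^ (3 / 4 : ℝ) := by
  have hp0 : 0 < p := by linarith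
  rw [Real.sqrt_eq_rpow, ← Real.rpow_natCast, ← Real.rpow_natCast, ← Real.rpow_natCast,
    ← Real.rpow_mul hp0.le, ← Real.rpow_mul hp0.le, ← Real.rpow_add hp0]
  refine Real.rpow_le_rpow_of_exponent_le hp ?_
  rcases Nat.even_or_odd' e with ⟨k, rfl | rfl⟩
  · have e1 : (2 * k + 1) / 2 = k := by omega
    have e2 : 2 * k / 2 = k := by omega
    rw [e1, e2]
    push_cast
    linarith
  · have e1 : (2 * k + 1 + 1) / 2 = k + 1 := by omega
    have e2 : (2 * k + 1) / 2 = k := by omega
    rw [e1, e2]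
    push_cast
    linarith

/-- the angle used for `n` -/
noncomputable def ang (r : ℕ) : ℝ := if r = 0 then Real.pi / 2 else Real.pi / (2 * r)

theorem ang_pos (r : ℕ) : 0 < ang r := by
  unfold ang
  split_ifs with h
  · linarith [Real.pi_pos]
  · have : (0 : ℝ) < r := by exact_mod_cast Nat.pos_of_ne_zero h
    have := Real.pi_pos
    positivity

theorem ang_le (r : ℕ) : ang r ≤ Real.pi / 2 := by
  unfold ang
  split_ifs with h
  · exact le_rfl
  · have h1 : (1 : ℝ) ≤ r := by exact_mod_cast Nat.one_le_iff_ne_zero.mpr h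
    have := Real.pi_pos
    rw [div_le_div_iff₀ (by positivity) (by norm_num)]
    nlinarith

theorem ang_mul_le (r : ℕ) : ang r * r ≤ Real.pi / 2 := by
  unfold ang
  split_ifs with h
  · rw [h]; simp; linarith [Real.pi_pos]
  · have h1 : (0 : ℝ) < r := by exact_mod_cast Nat.pos_of_ne_zero h
    apply le_of_eq
    field_simp

theorem ang_const (r : ℕ) : max 1 (Real.cos (ang r) / Real.sin (ang r)) = cotConst r := by
  unfold ang cotConst
  split_ifs with h
  · rw [h]
    simp
  · rfl

/-- the exact bound before simplification -/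
theorem card_le_prod (n N : ℕ) (hn : Odd n) (hN : 0 < N) (hc : N.Coprime n) (S : Finset ℤ)
    (hS : ∀ x ∈ S, ∀ y ∈ S, x ≠ y → ¬ SqMod (N * n) (x - y)) :
    (S.card : ℝ) ≤ N * ∏ p ∈ n.primeFactors, W (ang (numThree n)) p (n.factorization p) := by
  have hn0 : n ≠ 0 := by rintro rfl; simp at hn
  have h1 := ker_prod (ang_pos (numThree n)) (ang_le (numThree n)) (fun p => n.factorization p)
    n.primeFactors (fun p hp => ⟨Nat.prime_of_mem_primeFactors hp, by
      rintro rfl
      have h2 := Nat.dvd_of_mem_primeFactors hp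
      rw [Nat.odd_iff] at hn
      omega⟩)
  have h2 : ∏ p ∈ n.primeFactors, p ^ n.factorization p = n := Nat.prod_factorization_pow_eq_self hn0
  rw [h2] at h1
  have h3 := (ker_triv N hN).mul hc le_rfl (by have := ang_pos (numThree n); positivity) h1
  refine h3.bound ?_ S hS
  rw [zero_add]
  exact ang_mul_le _

theorem W_le {p : ℕ} (hp : p.Prime) (r e : ℕ) :
    W (ang r) p e ≤ (((p ^ e : ℕ) : ℝ)) ^ (3 / 4 : ℝ) *
      cotConst r ^ (if p % 4 = 3 ∨ p = 2 then (e + 1) / 2 else 0) := by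
  have hp1 : (1 : ℝ) ≤ p := by exact_mod_cast hp.one_lt.le
  have hk : 0 ≤ Real.cos (ang r) / Real.sin (ang r) := by
    have hsin : 0 < Real.sin (ang r) := Real.sin_pos_of_pos_of_lt_pi (ang_pos r)
      (by linarith [Real.pi_pos, ang_le r])
    have hcos : 0 ≤ Real.cos (ang r) := Real.cos_nonneg_of_mem_Icc
      ⟨by linarith [ang_pos r, Real.pi_pos], ang_le r⟩
    positivity
  have hs1 : 1 ≤ Real.sqrt p := Real.one_le_sqrt.mpr hp1
  push_cast
  unfold W
  by_cases h : p % 4 = 1
  · rw [if_pos h, if_neg (by rintro (h2 | h2) <;> omega), pow_zero, mul_one]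
    exact sqrt_pow_le hp1 e
  · have h3 : p % 4 = 3 ∨ p = 2 := by
      rcases hp.eq_two_or_odd with h2 | h2
      · exact Or.inr h2
      · left; omega
    rw [if_neg h, if_pos h3]
    have hb := beta_le hs1 hk
    rw [Real.sq_sqrt (by linarith), ang_const] at hb
    have h4 : 0 ≤ (p : ℝ) * (1 + Real.sqrt p * (Real.cos (ang r) / Real.sin (ang r))) /
        (p + Real.sqrt p * (Real.cos (ang r) / Real.sin (ang r))) := by positivity
    calc _ ≤ (Real.sqrt p * cotConst r) ^ ((e + 1) / 2) * (p : ℝ) ^ (e / 2) := by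
          gcongr
      _ = (Real.sqrt p ^ ((e + 1) / 2) * (p : ℝ) ^ (e / 2)) * cotConst r ^ ((e + 1) / 2) := by
          rw [mul_pow]; ring
      _ ≤ _ := by
          have := one_le_cotConst r
          exact mul_le_mul_of_nonneg_right (sqrt_pow_le hp1 e) (by positivity)

theorem W_nonneg (r p e : ℕ) : 0 ≤ W (ang r) p e := by
  have hk : 0 ≤ Real.cos (ang r) / Real.sin (ang r) := by
    have hsin : 0 < Real.sin (ang r) := Real.sin_pos_of_pos_of_lt_pi (ang_pos r)
      (by linarith [Real.pi_pos, ang_le r])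
    have hcos : 0 ≤ Real.cos (ang r) := Real.cos_nonneg_of_mem_Icc
      ⟨by linarith [ang_pos r, Real.pi_pos], ang_le r⟩
    positivity
  unfold W
  split_ifs <;> positivity

/-- main bound -/
theorem card_le (n N : ℕ) (hn : Odd n) (hN : 0 < N) (hc : N.Coprime n) (S : Finset ℤ)
    (hS : ∀ x ∈ S, ∀ y ∈ S, x ≠ y → ¬ SqMod (N * n) (x - y)) :
    (S.card : ℝ) ≤ N * ((n : ℝ) ^ (3 / 4 : ℝ) * cotConst (numThree n) ^ weightThree n) := by
  have hn0 : n ≠ 0 := by rintro rfl; simp at hn
  refine (card_le_prod n N hn hN hc S hS).trans ?_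
  refine mul_le_mul_of_nonneg_left ?_ (by positivity)
  calc ∏ p ∈ n.primeFactors, W (ang (numThree n)) p (n.factorization p)
      ≤ ∏ p ∈ n.primeFactors, ((((p ^ n.factorization p : ℕ) : ℝ)) ^ (3 / 4 : ℝ) *
        cotConst (numThree n) ^ (if p % 4 = 3 ∨ p = 2 then (n.factorization p + 1) / 2 else 0)) :=
        Finset.prod_le_prod (fun p _ => W_nonneg _ _ _) fun p hp =>
          W_le (Nat.prime_of_mem_primeFactors hp) _ _
    _ = (n : ℝ) ^ (3 / 4 : ℝ) * cotConst (numThree n) ^ weightThree n := by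
        rw [Finset.prod_mul_distrib]
        congr 1
        · rw [Real.finsetProd_rpow _ _ (fun p _ => by positivity)]
          congr 1
          rw [← Nat.cast_prod]
          congr 1
          exact Nat.prod_factorization_pow_eq_self hn0
        · rw [Finset.prod_pow_eq_pow_sum, weightThree, Finset.sum_filter]
          congr 1
          refine Finset.sum_congr rfl fun p hp => ?_
          have hp2 : p ≠ 2 := by
            rintro rfl
            have h2 := Nat.dvd_of_mem_primeFactors hp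
            rw [Nat.odd_iff] at hn
            omega
          by_cases h3 : p % 4 = 3
          · rw [if_pos (Or.inl h3), if_pos h3]
          · rw [if_neg (by rintro (h | h) <;> contradiction), if_neg h3]

theorem cotConst_le_two {r : ℕ} (h : r ≤ 2) : cotConst r = 1 := by
  unfold cotConst
  refine max_eq_left ?_
  interval_cases r
  · simp
  · simp
  · have : Real.pi / (2 * ((2 : ℕ) : ℝ)) = Real.pi / 4 := by push_cast; ring
    rw [this, Real.cos_pi_div_four, Real.sin_pi_div_four]
    rw [div_self (by positivity)]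

end Vale.Agent.P042.H485
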