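import Vale.Agent.P042.R2.H485.Final

/-!
# Periodic sets of integers without square differences
-/

open Finset

namespace Vale.Agent.P042.H485

/-- `A` is a subset of `{1, ..., M}`, a union of residue classes modulo `n` inside `{1, ..., M}` -/
def PeriodicIn (n M : ℕ) (A : Finset ℕ) : Prop :=
  (∀ a ∈ A, 1 ≤ a ∧ a ≤ M) ∧
    ∀ a ∈ A, ∀ b : ℕ, 1 ≤ b → b ≤ M → b % n = a % n → b ∈ A

/-- no two elements of `A` differ by `k ^ 2`, `k ≥ 1` -/
def SquareDiffFree (A : Finset ℕ) : Prop :=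
  ∀ a ∈ A, ∀ b ∈ A, ∀ k : ℕ, 1 ≤ k → a ≠ b + k ^ 2

theorem periodic_aux {n M : ℕ} (hn : Odd n) (hM : n + ((n - 1) / 2) ^ 2 ≤ M) {A : Finset ℕ}
    (hA : PeriodicIn n M A) (hf : SquareDiffFree A) :
    ∃ S : Finset (ZMod n), NoSquareDiff S ∧ A.card ≤ (M / n + 1) * S.card := by
  classical
  have hn0 : 0 < n := hn.pos
  have : NeZero n := ⟨hn0.ne'⟩
  have hnM : n ≤ M := le_trans (Nat.le_add_right _ _) hM
  have hmem : ∀ a ∈ A, ∀ b : ℕ, 1 ≤ b → b ≤ M → (b : ZMod n) = (a : ZMod n) → b ∈ A := by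
    intro a ha b h1 h2 h3
    exact hA.2 a ha b h1 h2 ((ZMod.natCast_eq_natCast_iff' b a n).mp h3)
  refine ⟨A.image (fun a : ℕ => (a : ZMod n)), ?_, ?_⟩
  · intro x hx y hy hxy hsq
    obtain ⟨a, ha, rfl⟩ := Finset.mem_image.mp hx
    obtain ⟨b, hb, rfl⟩ := Finset.mem_image.mp hy
    obtain ⟨z, hz⟩ := hsq
    -- representative of b in [1, n]
    obtain ⟨b', hb'⟩ : ∃ b' : ℕ, b' = if b % n = 0 then n else b % n := ⟨_, rfl⟩
    have hlt : b % n < n := Nat.mod_lt _ hn0
    have hb1 : 1 ≤ b' := by rw [hb']; split_ifs <;> omega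
    have hbn : b' ≤ n := by rw [hb']; split_ifs <;> omega
    have hbc : (b' : ZMod n) = (b : ZMod n) := by
      rw [hb']
      split_ifs with h
      · rw [ZMod.natCast_self]
        symm
        exact (ZMod.natCast_eq_zero_iff b n).mpr (Nat.dvd_of_mod_eq_zero h)
      · exact ZMod.natCast_mod b n
    have hbA : b' ∈ A := hmem b hb b' hb1 (hbn.trans hnM) hbc
    obtain ⟨k, hk⟩ : ∃ k : ℕ, k = z.valMinAbs.natAbs := ⟨_, rfl⟩
    have hkn : k ≤ (n - 1) / 2 := by
      have h1 := ZMod.natAbs_valMinAbs_le z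
      rw [← hk] at h1
      have : n % 2 = 1 := Nat.odd_iff.mp hn
      omega
    have hkz : ((k ^ 2 : ℕ) : ZMod n) = z * z := by
      have h1 : ((k : ℤ)) ^ 2 = z.valMinAbs ^ 2 := by
        rw [hk]; exact Int.natAbs_sq _
      have h2 : (((k : ℤ) ^ 2 : ℤ) : ZMod n) = ((z.valMinAbs ^ 2 : ℤ) : ZMod n) := by rw [h1]
      push_cast at h2
      push_cast
      rw [h2, sq]
    have hk1 : 1 ≤ k := by
      rcases Nat.eq_zero_or_pos k with h | h
      · exfalso
        rw [h] at hkz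
        simp only [ne_eq, OfNat.ofNat_ne_zero, not_false_eq_true, zero_pow, Nat.cast_zero] at hkz
        rw [← hkz] at hz
        exact hxy (sub_eq_zero.mp hz)
      · exact h
    have ha' : b' + k ^ 2 ∈ A := by
      refine hmem a ha _ (by omega) ?_ ?_
      · calc b' + k ^ 2 ≤ n + ((n - 1) / 2) ^ 2 := Nat.add_le_add hbn (Nat.pow_le_pow_left hkn 2)
          _ ≤ M := hM
      · rw [Nat.cast_add, hkz, hbc, ← hz]
        ring
    exact hf _ ha' _ hbA k hk1 rfl
  · refine Finset.card_le_mul_card_image A (M / n + 1) fun x _ => ?_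
    calc (A.filter fun a : ℕ => (a : ZMod n) = x).card ≤ (Finset.range (M / n + 1)).card := by
          refine Finset.card_le_card_of_injOn (fun a => a / n) ?_ ?_
          · intro a ha
            have ha' := (Finset.mem_filter.mp ha).1
            simp only [Finset.coe_range, Set.mem_Iio]
            exact Nat.lt_succ_of_le (Nat.div_le_div_right (hA.1 a ha').2)
          · intro a ha b hb hab
            have h1 := (Finset.mem_filter.mp ha).2
            have h2 := (Finset.mem_filter.mp hb).2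
            have h3 : a % n = b % n := (ZMod.natCast_eq_natCast_iff' a b n).mp (h1.trans h2.symm)
            have h4 : a / n = b / n := hab
            rw [← Nat.div_add_mod a n, ← Nat.div_add_mod b n, h3, h4]
      _ = M / n + 1 := Finset.card_range _

/-- the length is less than `n ^ 2 + n` -/
theorem periodic_len {n M : ℕ} (hn : Odd n) (hnM : n ≤ M) {A : Finset ℕ}
    (hA : PeriodicIn n M A) (hf : SquareDiffFree A) (hne : A.Nonempty) : M < n ^ 2 + n := by
  by_contra hcon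
  push Not at hcon
  have hn0 : 0 < n := hn.pos
  obtain ⟨a, ha⟩ := hne
  obtain ⟨b', hb'⟩ : ∃ b' : ℕ, b' = if a % n = 0 then n else a % n := ⟨_, rfl⟩
  have hlt : a % n < n := Nat.mod_lt _ hn0
  have hb1 : 1 ≤ b' := by rw [hb']; split_ifs <;> omega
  have hbn : b' ≤ n := by rw [hb']; split_ifs <;> omega
  have hbc : b' % n = a % n := by
    rw [hb']
    split_ifs with h
    · rw [Nat.mod_self, h]
    · exact Nat.mod_mod _ _
  have hbA : b' ∈ A := hA.2 a ha b' hb1 (hbn.trans hnM) hbc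
  have hcA : b' + n ^ 2 ∈ A := by
    refine hA.2 a ha _ (by omega) (by omega) ?_
    rw [sq, Nat.add_mul_mod_self_left]
    exact hbc
  exact hf _ hcA _ hbA n hn0 rfl

theorem periodic_bound {n M : ℕ} (hn : Odd n) (hM : n + ((n - 1) / 2) ^ 2 ≤ M) {A : Finset ℕ}
    (hA : PeriodicIn n M A) (hf : SquareDiffFree A) :
    (A.card : ℝ) ≤ 12 * (M : ℝ) ^ (7 / 8 : ℝ) * cotConst (numThree n) ^ weightThree n ∧
    (16 ≤ n → (A.card : ℝ) ≤
      2 * M * Real.exp (-(Real.log n / (24 * Real.log (Real.log n))))) := by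
  have hn0 : 0 < n := hn.pos
  have hnM : n ≤ M := le_trans (Nat.le_add_right _ _) hM
  have hK := one_le_cotConst (numThree n)
  have hKp : 0 ≤ cotConst (numThree n) ^ weightThree n := by positivity
  rcases A.eq_empty_or_nonempty with rfl | hne
  · simp only [Finset.card_empty, Nat.cast_zero]
    exact ⟨by positivity, fun _ => by positivity⟩
  have hlen := periodic_len hn hnM hA hf hne
  obtain ⟨S, hS, hAS⟩ := periodic_aux hn hM hA hf
  have hAS' : (A.card : ℝ) ≤ ((M / n : ℕ) + 1 : ℝ) * S.card := by exact_mod_cast hAS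
  have hnR : (0 : ℝ) < n := by exact_mod_cast hn0
  have hdiv : ((M / n : ℕ) : ℝ) ≤ (M : ℝ) / n := Nat.cast_div_le
  obtain ⟨T, hT, hT2⟩ := exists_lift hn0 S hS
  have hT3 : ∀ x ∈ T, ∀ y ∈ T, x ≠ y → ¬ SqMod (1 * n) (x - y) := by
    rw [one_mul]; exact hT2
  have b1 := card_le n 1 hn one_pos (Nat.coprime_one_left n) T hT3
  rw [hT, Nat.cast_one, one_mul] at b1
  refine ⟨?_, ?_⟩
  · have hMn : (M : ℝ) ≤ n ^ 2 + n := by exact_mod_cast hlen.le
    have h1 : (M : ℝ) / n ≤ n + 1 := by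
      rw [div_le_iff₀ hnR]; nlinarith
    have hn1 : (1 : ℝ) ≤ n := by exact_mod_cast hn0
    have h2 : ((M / n : ℕ) + 1 : ℝ) ≤ 3 * n := by linarith
    -- n ≤ 2 √M
    have h3 : (n : ℝ) ^ 2 ≤ 4 * M := by
      have e1 : n % 2 = 1 := Nat.odd_iff.mp hn
      have e2 : n = 2 * ((n - 1) / 2) + 1 := by omega
      obtain ⟨k, hk⟩ : ∃ k, k = (n - 1) / 2 := ⟨_, rfl⟩
      rw [← hk] at e2 hM
      have e3 : n ^ 2 ≤ 4 * M := by
        rw [e2] at hM ⊢
        nlinarith
      exact_mod_cast e3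
    have hM0 : (0 : ℝ) < M := by
      have : 0 < M := lt_of_lt_of_le hn0 hnM
      exact_mod_cast this
    have h4 : (n : ℝ) * (n : ℝ) ^ (3 / 4 : ℝ) ≤ 4 * (M : ℝ) ^ (7 / 8 : ℝ) := by
      have e1 : (n : ℝ) * (n : ℝ) ^ (3 / 4 : ℝ) = ((n : ℝ) ^ 2) ^ (7 / 8 : ℝ) := by
        rw [← Real.rpow_natCast, ← Real.rpow_mul hnR.le]
        conv_lhs => rw [← Real.rpow_one (n : ℝ)]
        rw [Real.rpow_one, ← Real.rpow_one_add' hnR.le (by norm_num)]
        norm_num
      rw [e1]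
      calc ((n : ℝ) ^ 2) ^ (7 / 8 : ℝ) ≤ (4 * M) ^ (7 / 8 : ℝ) :=
            Real.rpow_le_rpow (by positivity) h3 (by norm_num)
        _ = 4 ^ (7 / 8 : ℝ) * (M : ℝ) ^ (7 / 8 : ℝ) := Real.mul_rpow (by norm_num) hM0.le
        _ ≤ 4 * (M : ℝ) ^ (7 / 8 : ℝ) := by
            refine mul_le_mul_of_nonneg_right ?_ (by positivity)
            calc (4 : ℝ) ^ (7 / 8 : ℝ) ≤ 4 ^ (1 : ℝ) :=
                  Real.rpow_le_rpow_of_exponent_le (by norm_num) (by norm_num)
              _ = 4 := Real.rpow_one 4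
    calc (A.card : ℝ) ≤ ((M / n : ℕ) + 1 : ℝ) * S.card := hAS'
      _ ≤ (3 * n) * ((n : ℝ) ^ (3 / 4 : ℝ) * cotConst (numThree n) ^ weightThree n) := by
          gcongr
      _ = 3 * ((n : ℝ) * (n : ℝ) ^ (3 / 4 : ℝ)) * cotConst (numThree n) ^ weightThree n := by ring
      _ ≤ 3 * (4 * (M : ℝ) ^ (7 / 8 : ℝ)) * cotConst (numThree n) ^ weightThree n := by gcongr
      _ = _ := by ring
  · intro h16
    have b2 := card_le_all n 1 hn h16 one_pos (Nat.coprime_one_left n) T hT3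
    rw [hT, Nat.cast_one, one_mul] at b2
    have hexp := Real.exp_pos (-(Real.log n / (24 * Real.log (Real.log n))))
    have h1 : ((M / n : ℕ) + 1 : ℝ) * n ≤ 2 * M := by
      have e1 : ((M / n : ℕ) : ℝ) * n ≤ M := by
        have : (M / n) * n ≤ M := Nat.div_mul_le_self M n
        exact_mod_cast this
      have e2 : (n : ℝ) ≤ M := by exact_mod_cast hnM
      linarith
    calc (A.card : ℝ) ≤ ((M / n : ℕ) + 1 : ℝ) * S.card := hAS'
      _ ≤ ((M / n : ℕ) + 1 : ℝ) *
          (n * Real.exp (-(Real.log n / (24 * Real.log (Real.log n))))) := by gcongr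
      _ = (((M / n : ℕ) + 1 : ℝ) * n) *
          Real.exp (-(Real.log n / (24 * Real.log (Real.log n)))) := by ring
      _ ≤ _ := by gcongr

end Vale.Agent.P042.H485
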