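import Vale.Agent.P042.R2.H485.Base

/-!
# Powers of an odd prime
-/

open Finset

namespace Vale.Agent.P042.H485

variable {p : ℕ} [Fact p.Prime]

/-- squares prime to `p` lift -/
theorem sqMod_lift (hp : p ≠ 2) {t : ℤ} (h : SqMod p t) (ht : ¬ (p : ℤ) ∣ t) (a : ℕ) :
    SqMod (p ^ a) t := by
  have hpr : Prime (p : ℤ) := Nat.prime_iff_prime_int.mp Fact.out
  have key : ∀ a : ℕ, ∃ n : ℤ, ((p : ℤ) ^ (a + 1)) ∣ t - n ^ 2 := by
    intro a
    induction a with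
    | zero =>
      obtain ⟨n, hn⟩ := h
      exact ⟨n, by simpa using hn⟩
    | succ a ih =>
      obtain ⟨n, m, hn⟩ := ih
      have hn' : ¬ (p : ℤ) ∣ 2 * n := by
        intro hd
        rcases hpr.dvd_or_dvd hd with h2 | h2
        · have h3 : p ∣ 2 := by exact_mod_cast h2
          exact hp ((Nat.prime_dvd_prime_iff_eq Fact.out Nat.prime_two).mp h3)
        · apply ht
          have : t = (p : ℤ) ^ (a + 1) * m + n ^ 2 := by linarith
          rw [this]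
          refine dvd_add (Dvd.dvd.mul_right (dvd_pow_self _ (Nat.succ_ne_zero a)) _) ?_
          exact h2.trans (dvd_pow_self _ two_ne_zero)
      have hcop : IsCoprime (p : ℤ) (2 * n) := (hpr.coprime_iff_not_dvd).mpr hn'
      obtain ⟨u, v, huv⟩ := hcop
      refine ⟨n + (p : ℤ) ^ (a + 1) * (v * m), ?_⟩
      refine ⟨u * m - (p : ℤ) ^ a * (v * m) ^ 2, ?_⟩
      have e : t - (n + (p : ℤ) ^ (a + 1) * (v * m)) ^ 2 =
          (t - n ^ 2) - (p : ℤ) ^ (a + 1) * ((v * (2 * n)) * m) -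
            (p : ℤ) ^ (a + 1) * (p : ℤ) ^ (a + 1) * (v * m) ^ 2 := by ring
      have e2 : v * (2 * n) = 1 - u * p := by linarith
      rw [e, hn, e2]
      ring
  cases a with
  | zero => exact ⟨0, by simp⟩
  | succ a =>
    obtain ⟨n, hn⟩ := key a
    exact ⟨n, by push_cast; exact hn⟩

theorem sqMod_of_qc {t : ℤ} (h : qc p (t : ZMod p) ≠ -1) : SqMod p t := by
  have h1 : quadraticChar (ZMod p) (t : ZMod p) ≠ -1 := by
    intro h2
    exact h (by rw [qc_apply, h2]; simp)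
  have h3 : IsSquare (t : ZMod p) := by
    by_contra h4
    exact h1 (quadraticChar_neg_one_iff_not_isSquare.mpr h4)
  obtain ⟨r, hr⟩ := h3
  refine ⟨(r.val : ℤ), ?_⟩
  rw [← ZMod.intCast_zmod_eq_zero_iff_dvd]
  push_cast
  rw [ZMod.natCast_zmod_val, hr]
  ring

omit [Fact p.Prime] in
theorem sqMod_of_dvd_sq {t : ℤ} {a : ℕ} (h : SqMod (p ^ a) t) :
    SqMod (p ^ (a + 2)) ((p : ℤ) ^ 2 * t) := by
  obtain ⟨n, m, hm⟩ := h
  refine ⟨p * n, m, ?_⟩
  push_cast at hm ⊢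
  have : (p : ℤ) ^ 2 * t - (p * n) ^ 2 = (p : ℤ) ^ 2 * (t - n ^ 2) := by ring
  rw [this, hm]
  ring

/-- values of the base kernel -/
theorem BaseKer.ker {φ c : ℝ} (h : BaseKer p φ c) :
    Ker p φ (p * (1 + c) / (p + c)) := by
  obtain ⟨ι, I, a, θ, h1, h2⟩ := h
  refine ⟨ι, I, a, θ, h1, ?_, ?_⟩
  · have := h2 0
    simp only [ee_zero_right, mul_one] at this
    rw [this]
    have h0 : qc p ((0 : ℤ) : ZMod p) = 0 := by simp [qc_apply]
    rw [h0]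
    simp
    ring
  · intro t ht
    rw [h2 t]
    have h3 : qc p (t : ZMod p) = -1 := by
      by_contra h4
      exact ht (sqMod_of_qc h4)
    have h4 : ¬ (p : ℤ) ∣ t := by
      intro h5
      exact ht ⟨0, by simpa using h5⟩
    rw [h3, if_neg h4]
    simp

theorem sum_ee_div (N : ℕ) (hN : 0 < N) (θ : ℝ) (t : ℤ) (h : ¬ (N : ℤ) ∣ t) :
    ∑ s : Fin N, ee ((θ + s) / N) t = 0 := by
  have : NeZero N := ⟨hN.ne'⟩
  have e : ∀ s : Fin N, ee ((θ + (s : ℕ)) / N) t =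
      ee (θ / N) t * ZMod.stdAddChar (N := N) (((s : ℕ) : ZMod N) * (t : ZMod N)) := by
    intro s
    rw [add_div, ee_add_left]
    congr 1
    have : (((s : ℕ) : ZMod N) * (t : ZMod N)) = (((s : ℕ) * t : ℤ) : ZMod N) := by push_cast; rfl
    rw [this, ZMod.stdAddChar_coe, ee]
    congr 1
    push_cast
    ring
  rw [Finset.sum_congr rfl fun s _ => e s, ← Finset.mul_sum]
  have e2 : ∑ s : Fin N, ZMod.stdAddChar (N := N) (((s : ℕ) : ZMod N) * (t : ZMod N)) =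
      ∑ x : ZMod N, ZMod.stdAddChar (N := N) (x * (t : ZMod N)) := by
    refine Fintype.sum_bijective (fun s : Fin N => (((s : ℕ) : ZMod N))) ?_ _ _ fun s => rfl
    rw [Fintype.bijective_iff_injective_and_card]
    refine ⟨fun s s' hs => ?_, by simp⟩
    have := congrArg ZMod.val hs
    simp only [ZMod.val_natCast, Nat.mod_eq_of_lt s.2, Nat.mod_eq_of_lt s'.2] at this
    exact Fin.ext this
  rw [e2, AddChar.sum_mulShift _ (ZMod.isPrimitive_stdAddChar N), if_neg, Nat.cast_zero, mul_zero]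
  rwa [ZMod.intCast_zmod_eq_zero_iff_dvd]

theorem ee_div_mul (N : ℕ) (hN : 0 < N) (θ : ℝ) (s : ℕ) (t : ℤ) :
    ee ((θ + s) / N) (N * t) = ee θ t := by
  have hN' : (N : ℂ) ≠ 0 := by exact_mod_cast hN.ne'
  simp only [ee]
  rw [Complex.exp_eq_exp_iff_exists_int]
  refine ⟨s * t, ?_⟩
  push_cast
  field_simp

theorem sum_ee_div_mul (N : ℕ) (hN : 0 < N) (θ : ℝ) (t : ℤ) :
    ∑ s : Fin N, ee ((θ + s) / N) (N * t) = N * ee θ t := by
  have : ∀ s : Fin N, ee ((θ + (s : ℕ)) / N) (N * t) = ee θ t := fun s => ee_div_mul N hN θ s t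
  rw [Finset.sum_congr rfl fun s _ => this s]
  simp

omit [Fact p.Prime] in
theorem sum_dvd (hp0 : 0 < p) (g : ℕ → ℂ) :
    ∑ s : Fin (p ^ 2), (if p ∣ (s : ℕ) then g s else 0) = ∑ u : Fin p, g (p * u) := by
  rw [Fin.sum_univ_eq_sum_range (fun s => if p ∣ s then g s else 0) (p ^ 2),
    Fin.sum_univ_eq_sum_range (fun u => g (p * u)) p, ← Finset.sum_filter]
  refine Finset.sum_nbij' (fun s => s / p) (fun u => p * u) ?_ ?_ ?_ ?_ ?_
  · intro s hs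
    rw [Finset.mem_filter, Finset.mem_range] at hs
    rw [Finset.mem_range]
    exact Nat.div_lt_of_lt_mul (by rw [← sq]; exact hs.1)
  · intro u hu
    rw [Finset.mem_range] at hu
    rw [Finset.mem_filter, Finset.mem_range]
    exact ⟨by rw [sq]; exact Nat.mul_lt_mul_of_pos_left hu hp0, dvd_mul_right _ _⟩
  · intro s hs
    rw [Finset.mem_filter] at hs
    exact Nat.mul_div_cancel' hs.2
  · intro u _
    exact Nat.mul_div_cancel_left u hp0
  · intro s hs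
    rw [Finset.mem_filter] at hs
    rw [Nat.mul_div_cancel' hs.2]

theorem sum_part (x : ℝ) (t : ℤ) :
    ∑ s : Fin (p ^ 2), (if p ∣ (s : ℕ) then (0 : ℂ) else (x : ℂ)) *
        ee ((0 + ((s : ℕ) : ℝ)) / (p ^ 2 : ℕ)) t =
      (x : ℂ) * ∑ s : Fin (p ^ 2), ee ((0 + ((s : ℕ) : ℝ)) / (p ^ 2 : ℕ)) t -
        (x : ℂ) * (if (p : ℤ) ∣ t then (p : ℂ) else 0) := by
  have hp0 : 0 < p := (Fact.out : p.Prime).pos
  have hpR : (p : ℝ) ≠ 0 := by exact_mod_cast hp0.ne'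
  have e1 : ∀ s : Fin (p ^ 2), (if p ∣ (s : ℕ) then (0 : ℂ) else (x : ℂ)) *
        ee ((0 + ((s : ℕ) : ℝ)) / (p ^ 2 : ℕ)) t =
      (x : ℂ) * ee ((0 + ((s : ℕ) : ℝ)) / (p ^ 2 : ℕ)) t -
      (if p ∣ (s : ℕ) then (x : ℂ) * ee ((0 + ((s : ℕ) : ℝ)) / (p ^ 2 : ℕ)) t else 0) := by
    intro s
    split_ifs <;> ring
  rw [Finset.sum_congr rfl fun s _ => e1 s, Finset.sum_sub_distrib, ← Finset.mul_sum,
    sum_dvd hp0 (fun s => (x : ℂ) * ee ((0 + (s : ℝ)) / (p ^ 2 : ℕ)) t), ← Finset.mul_sum]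
  congr 2
  have e2 : ∀ u : Fin p, ee ((0 + ((p * (u : ℕ) : ℕ) : ℝ)) / (p ^ 2 : ℕ)) t =
      ee ((0 + ((u : ℕ) : ℝ)) / p) t := by
    intro u
    congr 1
    push_cast
    field_simp
    ring
  rw [Finset.sum_congr rfl fun u _ => e2 u]
  by_cases h : (p : ℤ) ∣ t
  · rw [if_pos h]
    obtain ⟨t', rfl⟩ := h
    rw [sum_ee_div_mul p hp0, ee_zero_left, mul_one]
  · rw [if_neg h]
    exact sum_ee_div p hp0 0 t h

/-- from `p ^ a` to `p ^ (a + 2)` -/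
theorem Ker.step {φ c β : ℝ} (hb : BaseKer p φ c) (hp : p ≠ 2) (hφ : 0 ≤ φ) (hc : 0 ≤ c) {a : ℕ}
    (h : Ker (p ^ a) φ β) : Ker (p ^ (a + 2)) φ (p * (p * (1 + c) / (p + c)) * β) := by
  obtain ⟨ι, I, b, θ, h1, h2⟩ := hb
  obtain ⟨κ, J, d, η, g1, g2, g3⟩ := h
  have hpn : 0 < p := (Fact.out : p.Prime).pos
  have hp0 : (0 : ℝ) < p := by exact_mod_cast hpn
  have hpc : (0 : ℝ) < p + c := by linarith
  have hpC : (p : ℂ) ≠ 0 := by exact_mod_cast hpn.ne'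
  have hpcC : ((p : ℂ) + c) ≠ 0 := by
    have : (((p + c : ℝ)) : ℂ) ≠ 0 := by exact_mod_cast hpc.ne'
    push_cast at this
    exact this
  obtain ⟨x, hx⟩ : ∃ x : ℝ, x = (1 + c) / (p + c) := ⟨_, rfl⟩
  have hx0 : 0 ≤ x := by rw [hx]; positivity
  have hxC : (x : ℂ) = (1 + c) / (p + c) := by rw [hx]; push_cast; rfl
  have hp2 : 0 < p ^ 2 := by positivity
  -- the total
  have key : ∀ t : ℤ, 1 + ∑ j : ι ⊕ Fin (p ^ 2) ⊕ (κ × Fin (p ^ 2)),
      (Sum.elim b (Sum.elim (fun s : Fin (p ^ 2) => if p ∣ (s : ℕ) then (0 : ℂ) else (x : ℂ))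
        fun z => (x : ℂ) * d z.1)) j *
      ee ((Sum.elim θ (Sum.elim (fun s : Fin (p ^ 2) => (0 + ((s : ℕ) : ℝ)) / (p ^ 2 : ℕ))
        fun z => (η z.1 + ((z.2 : ℕ) : ℝ)) / (p ^ 2 : ℕ))) j) t =
      ((p / (p + c) : ℝ) : ℂ) * (1 + qc p (t : ZMod p) + if (p : ℤ) ∣ t then (c : ℂ) else 0) -
        (x : ℂ) * (if (p : ℤ) ∣ t then (p : ℂ) else 0) +
      (x : ℂ) * (∑ s : Fin (p ^ 2), ee ((0 + ((s : ℕ) : ℝ)) / (p ^ 2 : ℕ)) t +
        ∑ j, d j * ∑ s : Fin (p ^ 2), ee ((η j + ((s : ℕ) : ℝ)) / (p ^ 2 : ℕ)) t) := by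
    intro t
    rw [Fintype.sum_sum_type, Fintype.sum_sum_type, Fintype.sum_prod_type]
    simp only [Sum.elim_inl, Sum.elim_inr]
    rw [sum_part, ← add_assoc, h2 t]
    have : ∑ y, ∑ s : Fin (p ^ 2), (x : ℂ) * d y * ee ((η y + ((s : ℕ) : ℝ)) / (p ^ 2 : ℕ)) t =
        (x : ℂ) * ∑ j, d j * ∑ s : Fin (p ^ 2), ee ((η j + ((s : ℕ) : ℝ)) / (p ^ 2 : ℕ)) t := by
      rw [Finset.mul_sum]
      refine Finset.sum_congr rfl fun y _ => ?_
      rw [Finset.mul_sum, Finset.mul_sum]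
      exact Finset.sum_congr rfl fun s _ => by ring
    rw [this]
    ring
  have keyC : ∀ t' : ℤ, 1 + ∑ j : ι ⊕ Fin (p ^ 2) ⊕ (κ × Fin (p ^ 2)),
      (Sum.elim b (Sum.elim (fun s : Fin (p ^ 2) => if p ∣ (s : ℕ) then (0 : ℂ) else (x : ℂ))
        fun z => (x : ℂ) * d z.1)) j *
      ee ((Sum.elim θ (Sum.elim (fun s : Fin (p ^ 2) => (0 + ((s : ℕ) : ℝ)) / (p ^ 2 : ℕ))
        fun z => (η z.1 + ((z.2 : ℕ) : ℝ)) / (p ^ 2 : ℕ))) j) (((p ^ 2 : ℕ) : ℤ) * t') =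
      (x : ℂ) * p ^ 2 * (1 + ∑ j, d j * ee (η j) t') := by
    intro t'
    have hd : (p : ℤ) ∣ ((p ^ 2 : ℕ) : ℤ) * t' := by
      push_cast
      exact Dvd.dvd.mul_right (dvd_pow_self _ two_ne_zero) _
    have hq : qc p (((((p ^ 2 : ℕ) : ℤ) * t' : ℤ)) : ZMod p) = 0 := by
      rw [(ZMod.intCast_zmod_eq_zero_iff_dvd _ p).mpr hd]
      simp [qc_apply]
    rw [key, if_pos hd, if_pos hd, hq, sum_ee_div_mul _ hp2, ee_zero_left]
    have : ∀ j, ∑ s : Fin (p ^ 2), ee ((η j + ((s : ℕ) : ℝ)) / (p ^ 2 : ℕ))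
        (((p ^ 2 : ℕ) : ℤ) * t') = ((p ^ 2 : ℕ) : ℂ) * ee (η j) t' := fun j =>
      sum_ee_div_mul _ hp2 _ _
    rw [Finset.sum_congr rfl fun j _ => by rw [this j]]
    have e3 : ∑ j, d j * (((p ^ 2 : ℕ) : ℂ) * ee (η j) t') =
        (p : ℂ) ^ 2 * ∑ j, d j * ee (η j) t' := by
      rw [Finset.mul_sum]
      exact Finset.sum_congr rfl fun j _ => by push_cast; ring
    rw [e3, hxC]
    push_cast
    field_simp
    ring
  refine ⟨ι ⊕ Fin (p ^ 2) ⊕ (κ × Fin (p ^ 2)), inferInstance,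
    Sum.elim b (Sum.elim (fun s : Fin (p ^ 2) => if p ∣ (s : ℕ) then (0 : ℂ) else (x : ℂ))
        fun z => (x : ℂ) * d z.1),
    Sum.elim θ (Sum.elim (fun s : Fin (p ^ 2) => (0 + ((s : ℕ) : ℝ)) / (p ^ 2 : ℕ))
        fun z => (η z.1 + ((z.2 : ℕ) : ℝ)) / (p ^ 2 : ℕ)), ?_, ?_, ?_⟩
  · rintro (j | j | j)
    · exact h1 j
    · simp only [Sum.elim_inr, Sum.elim_inl]
      split_ifs
      · simpa using sec_of_nonneg hφ (le_refl (0 : ℝ))
      · exact sec_of_nonneg hφ hx0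
    · exact (g1 j.1).smul hx0
  · have := keyC 0
    simp only [mul_zero, ee_zero_right, mul_one] at this
    rw [this, g2, hxC]
    push_cast
    field_simp
  · intro t ht
    by_cases hd : (p : ℤ) ∣ t
    · by_cases hd2 : ((p ^ 2 : ℕ) : ℤ) ∣ t
      · obtain ⟨t', rfl⟩ := hd2
        rw [keyC]
        have : ¬ SqMod (p ^ a) t' := by
          intro h5
          apply ht
          have := sqMod_of_dvd_sq h5
          push_cast at this ⊢
          exact this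
        rw [g3 t' this, mul_zero]
      · have hq : qc p (t : ZMod p) = 0 := by
          rw [(ZMod.intCast_zmod_eq_zero_iff_dvd _ p).mpr hd]
          simp [qc_apply]
        rw [key, if_pos hd, if_pos hd, hq, sum_ee_div _ hp2 _ _ hd2]
        have : ∀ j, ∑ s : Fin (p ^ 2), ee ((η j + ((s : ℕ) : ℝ)) / (p ^ 2 : ℕ)) t = 0 := fun j =>
          sum_ee_div _ hp2 _ _ hd2
        rw [Finset.sum_congr rfl fun j _ => by rw [this j, mul_zero]]
        rw [hxC]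
        push_cast
        field_simp
        simp
    · have hd2 : ¬ ((p ^ 2 : ℕ) : ℤ) ∣ t := by
        intro h5
        apply hd
        refine dvd_trans ?_ h5
        push_cast
        exact dvd_pow_self _ two_ne_zero
      have hq : qc p (t : ZMod p) = -1 := by
        by_contra h4
        exact ht (sqMod_lift hp (sqMod_of_qc h4) hd _)
      rw [key, if_neg hd, if_neg hd, hq, sum_ee_div _ hp2 _ _ hd2]
      have : ∀ j, ∑ s : Fin (p ^ 2), ee ((η j + ((s : ℕ) : ℝ)) / (p ^ 2 : ℕ)) t = 0 := fun j =>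
        sum_ee_div _ hp2 _ _ hd2
      rw [Finset.sum_congr rfl fun j _ => by rw [this j, mul_zero]]
      simp

end Vale.Agent.P042.H485
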