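import Vale.Agent.P042.R2.H485.Periodic

/-!
# Square differences modulo `m`: the statements
-/

open Finset

namespace Vale.Agent.P042.H485

/-- Sets `S` of residues modulo `N * n`, `n` odd and coprime to `N`, such that no difference of two
distinct elements is a square modulo `N * n` (`NoSquareDiff`). Here `numThree n` is the number `r` of
primes `p % 4 = 3` dividing `n`, `weightThree n` the sum over these primes of half of the exponent,
rounded up, and `cotConst r = max 1 (cot (π / (2 r)))`. -/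
def ModSq : Prop :=
  ∀ N n : ℕ, 0 < N → Odd n → N.Coprime n → ∀ S : Finset (ZMod (N * n)), NoSquareDiff S →
    (S.card : ℝ) ≤ N * ((n : ℝ) ^ (3 / 4 : ℝ) * cotConst (numThree n) ^ weightThree n) ∧
    (numThree n ≤ 2 → (S.card : ℝ) ≤ N * (n : ℝ) ^ (3 / 4 : ℝ)) ∧
    (Squarefree n →
      (S.card : ℝ) ≤ N * (Real.sqrt n * cotConst (numThree n) ^ numThree n)) ∧
    S.card ≤ N * ∏ p ∈ n.primeFactors,
      ((p + 1) / 2) ^ ((n.factorization p + 1) / 2) * p ^ (n.factorization p / 2) ∧
    (16 ≤ n →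
      (S.card : ℝ) ≤ N * (n * Real.exp (-(Real.log n / (24 * Real.log (Real.log n))))))

theorem modSq : ModSq := by
  intro N n hN hn hc S hS
  have hn0 : 0 < n := hn.pos
  obtain ⟨T, hT, hT2⟩ := exists_lift (Nat.mul_pos hN hn0) S hS
  rw [← hT]
  refine ⟨card_le n N hn hN hc T hT2, fun h2 => ?_, fun hsq =>
    card_le_squarefree n N hn hsq hN hc T hT2, card_le_rank n N hn hN hc T hT2, fun h16 =>
    card_le_all n N hn h16 hN hc T hT2⟩
  have := card_le n N hn hN hc T hT2
  rwa [cotConst_le_two h2, one_pow, mul_one] at this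

/-- Sets `A` in `{1, ..., M}` that are unions of residue classes modulo an odd `n` inside
`{1, ..., M}`, `n + ((n - 1) / 2) ^ 2 ≤ M`, without two elements `a = b + k ^ 2`, `k ≥ 1`. -/
def PerSq : Prop :=
  ∀ n M : ℕ, Odd n → n + ((n - 1) / 2) ^ 2 ≤ M →
    ∀ A : Finset ℕ, PeriodicIn n M A → SquareDiffFree A →
      (A.card : ℝ) ≤ 12 * (M : ℝ) ^ (7 / 8 : ℝ) * cotConst (numThree n) ^ weightThree n ∧
      (numThree n ≤ 2 → (A.card : ℝ) ≤ 12 * (M : ℝ) ^ (7 / 8 : ℝ)) ∧
      (16 ≤ n → (A.card : ℝ) ≤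
        2 * M * Real.exp (-(Real.log n / (24 * Real.log (Real.log n)))))

theorem perSq : PerSq := by
  intro n M hn hM A hA hf
  obtain ⟨h1, h2⟩ := periodic_bound hn hM hA hf
  refine ⟨h1, fun h => ?_, h2⟩
  rwa [cotConst_le_two h, one_pow, mul_one] at h1

end Vale.Agent.P042.H485
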